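import Vale.Agent.N047C.Tilt

/-! The coin problem for Boolean functions of low degree. -/

open Finset Filter
open scoped Topology

namespace Vale.Agent.N047C

open Vale.Agent.P047 Vale.Agent.P047.H594

noncomputable section

/-- `γ` is the bias function of a Boolean function of degree at most `d` -/
def Rz (d : ℕ) (γ : ℝ → ℝ) : Prop :=
  ∃ (n : ℕ) (f : Cube n → ℝ), IsBoolean f ∧ BDeg d f ∧ ∀ s, Eb s f = γ s

theorem Rz.of_index {κ : Type} [Fintype κ] [DecidableEq κ] {d : ℕ} {γ : ℝ → ℝ}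
    (f : (κ → ℤˣ) → ℝ) (h0 : ∀ x, f x = 1 ∨ f x = -1) (h1 : BDeg d f) (h2 : ∀ s, Eb s f = γ s) :
    Rz d γ := by
  let e : κ ≃ Fin (Fintype.card κ) := Fintype.equivFin κ
  refine ⟨Fintype.card κ, fun x => f (fun i => x (e i)), fun x => h0 _, h1.reindex e, fun s => ?_⟩
  rw [← h2]
  unfold Eb
  refine Fintype.sum_equiv (Equiv.arrowCongr e.symm (Equiv.refl _)) _ _ fun x => ?_
  congr 1
  exact (Fintype.prod_equiv e _ _ fun i => rfl).symm

theorem Rz.abs_le {d : ℕ} {γ : ℝ → ℝ} (h : Rz d γ) {s : ℝ} (hs : |s| ≤ 1) : |γ s| ≤ 1 := by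
  obtain ⟨n, f, h0, -, h2⟩ := h
  rw [← h2, _root_.abs_le]
  constructor
  · rw [← Eb_const (ι := Fin n) s (-1)]
    exact Eb_mono hs fun x => by rcases h0 x with h | h <;> rw [h] <;> norm_num
  · rw [← Eb_const (ι := Fin n) s 1]
    exact Eb_mono hs fun x => by rcases h0 x with h | h <;> rw [h] <;> norm_num

theorem Rz.id : Rz 1 id := by
  refine Rz.of_index (κ := Fin 1) (fun x => sg (x 0)) (fun x => sg_cases _)
    (by simpa using BDeg.full (ι := Fin 1) fun x => sg (x 0)) fun s => ?_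
  simpa using Eb_prod (ι := Fin 1) s {0}

theorem Rz.comp {d₁ d₂ : ℕ} {γ₁ γ₂ : ℝ → ℝ} (h₁ : Rz d₁ γ₁) (h₂ : Rz d₂ γ₂) :
    Rz (d₁ * d₂) (γ₁ ∘ γ₂) := by
  obtain ⟨n, f, f0, f1, f2⟩ := h₁
  obtain ⟨m, g, g0, g1, g2⟩ := h₂
  have hind : ∀ (y : Cube m) (l : ℤˣ),
      (if sgn g y = l then (1 : ℝ) else 0) = 1 / 2 + sg l / 2 * g y := fun y l => by
    rw [ind_eq, show sg (sgn g y) = g y from sgn_cast g0 y]
    ring
  refine Rz.of_index (κ := Fin n × Fin m) (fun x => f fun i => sgn g fun j => x (i, j))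
    (fun x => f0 _) (f1.compLabel (fun i x => sgn g fun j => x (i, j)) fun i l => ?_) fun s => ?_
  · simp only [hind]
    exact (BDeg.const _ _).add ((g1.reindex fun j => (i, j)).smul _)
  · have e1 : Eb s (fun x : Fin n × Fin m → ℤˣ => f fun i => sgn g fun j => x (i, j)) =
        ∑ y : Fin n → Fin m → ℤˣ, (∏ i, ∏ j, w s (y i j)) * f fun i => sgn g (y i) := by
      unfold Eb
      refine Fintype.sum_equiv (Equiv.curry (Fin n) (Fin m) ℤˣ) _ _ fun x => ?_
      rw [Fintype.prod_prod_type]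
      rfl
    rw [e1, push (fun _ (c : Fin m → ℤˣ) => ∏ j, w s (c j)) (fun _ c => sgn g c) f,
      Function.comp_apply, ← f2]
    unfold Eb
    refine sum_congr rfl fun z _ => ?_
    congr 1
    refine prod_congr rfl fun i _ => ?_
    have e2 : ∀ c : Fin m → ℤˣ, (if sgn g c = z i then ∏ j, w s (c j) else 0) =
        (∏ j, w s (c j)) * (1 / 2 + sg (z i) / 2 * g c) := fun c => by
      rw [← hind]
      split_ifs <;> simp
    have e3 : ∑ c : Fin m → ℤˣ, (∏ j, w s (c j)) * (1 / 2 + sg (z i) / 2 * g c) =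
        Eb s (fun c : Fin m → ℤˣ => 1 / 2 + sg (z i) / 2 * g c) := rfl
    rw [sum_congr rfl fun c _ => e2 c, e3, Eb_add, Eb_const, Eb_smul, g2, w]
    ring

theorem Rz.iterate {d : ℕ} {γ : ℝ → ℝ} (h : Rz d γ) (j : ℕ) : Rz (d ^ j) (γ^[j]) := by
  induction j with
  | zero => simpa using Rz.id
  | succ j ih =>
    rw [pow_succ, Function.iterate_succ]
    exact ih.comp h

/-- the bias function of the majority of three signs -/
def mu (s : ℝ) : ℝ := (3 * s - s ^ 3) / 2

theorem Rz.maj : Rz 3 mu := by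
  refine Rz.of_index (κ := Fin 3) (fun x => 1 / 2 * ∏ i ∈ {0}, sg (x i) +
    (1 / 2 * ∏ i ∈ {1}, sg (x i) + (1 / 2 * ∏ i ∈ {2}, sg (x i) + -(1 / 2) * ∏ i, sg (x i))))
    (fun x => ?_) (by simpa using BDeg.full (ι := Fin 3) _) fun s => ?_
  · simp only [prod_singleton, Fin.prod_univ_three]
    rcases sg_cases (x 0) with h0 | h0 <;> rcases sg_cases (x 1) with h1 | h1 <;>
      rcases sg_cases (x 2) with h2 | h2 <;> rw [h0, h1, h2] <;> norm_num
  · rw [Eb_add, Eb_add, Eb_add, Eb_smul, Eb_smul, Eb_smul, Eb_smul, Eb_prod, Eb_prod, Eb_prod,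
      Eb_prod]
    simp only [card_singleton, card_univ, Fintype.card_fin, mu]
    ring

theorem iterate_odd {γ : ℝ → ℝ} (h : ∀ s, γ (-s) = - γ s) (j : ℕ) (s : ℝ) :
    γ^[j] (-s) = - γ^[j] s := by
  induction j generalizing s with
  | zero => rfl
  | succ j ih => rw [Function.iterate_succ_apply, Function.iterate_succ_apply, h, ih]

theorem mu_iterate {δ : ℝ} (h0 : 0 < δ) (j : ℕ) {s : ℝ} (h1 : δ ≤ s) (h2 : s ≤ 1) :
    1 - mu^[j] s ≤ (1 - δ / 2) ^ j := by
  have key : ∀ j : ℕ, ∀ s : ℝ, δ ≤ s → s ≤ 1 → 1 - mu^[j] s ≤ (1 - δ / 2) ^ j * (1 - s) := by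
    intro j
    induction j with
    | zero => intro s _ _; simp
    | succ j ih =>
      intro s h1 h2
      have e1 : 1 - mu s = (1 - s) * ((1 - s) * (2 + s) / 2) := by unfold mu; ring
      have e2 : (1 - s) * (2 + s) / 2 ≤ 1 - δ / 2 := by nlinarith
      have e3 : 0 ≤ (1 - s) * (2 + s) / 2 := by
        have : 0 ≤ (1 - s) * (2 + s) := mul_nonneg (by linarith) (by linarith)
        linarith
      have e4 : 1 - mu s ≤ (1 - s) * (1 - δ / 2) :=
        e1 ▸ mul_le_mul_of_nonneg_left e2 (by linarith)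
      have e5 : 0 ≤ 1 - mu s := e1 ▸ mul_nonneg (by linarith) e3
      rw [Function.iterate_succ_apply]
      refine (ih (mu s) (by nlinarith) (by linarith)).trans ?_
      rw [pow_succ, mul_assoc, mul_comm (1 - δ / 2) (1 - s)]
      exact mul_le_mul_of_nonneg_left e4 (pow_nonneg (by linarith) _)
  refine (key j s h1 h2).trans (mul_le_of_le_one_right (pow_nonneg (by linarith) _) (by linarith))

theorem grow {d : ℕ} {γ : ℝ → ℝ} (h : Rz d γ) {δ lam : ℝ} (hl : 0 < lam)
    (hg : ∀ s, 0 < s → s < δ → lam * s ≤ γ s) (j : ℕ) :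
    ∀ t : ℝ, 0 < t → t ≤ 1 → δ ≤ lam ^ j * t → ∃ i ≤ j, δ ≤ γ^[i] t := by
  induction j with
  | zero => intro t _ _ ht; exact ⟨0, le_rfl, by simpa using ht⟩
  | succ j ih =>
    intro t h0 h1 ht
    by_cases hδ : δ ≤ t
    · exact ⟨0, Nat.zero_le _, hδ⟩
    have h2 := hg t h0 (not_le.1 hδ)
    obtain ⟨i, hi, h3⟩ := ih (γ t) ((mul_pos hl h0).trans_le h2)
      ((le_abs_self _).trans (h.abs_le (by rwa [abs_of_pos h0])))
      (ht.trans (by
        rw [pow_succ, mul_assoc]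
        exact mul_le_mul_of_nonneg_left h2 (pow_pos hl j).le))
    exact ⟨i + 1, by omega, h3⟩

/-- an odd function with a large slope -/
theorem exists_base {b : ℝ} (hb0 : 0 < b) (hb : b < alpha) : ∃ (d : ℕ) (γ : ℝ → ℝ) (L : ℝ),
    2 ≤ d ∧ Rz d γ ∧ (∀ s, γ (-s) = - γ s) ∧ HasDerivAt γ L 0 ∧ (d : ℝ) ^ b < L := by
  obtain ⟨c, hc, h⟩ := lower (ε := (alpha - b) / 2) (by linarith)
  have hlim : Tendsto (fun d : ℕ => c * (d : ℝ) ^ ((alpha - b) / 2)) atTop atTop :=
    Tendsto.const_mul_atTop hc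
      ((tendsto_rpow_atTop (by linarith)).comp tendsto_natCast_atTop_atTop)
  obtain ⟨d, hd, hd1⟩ := ((hlim.eventually_gt_atTop 2).and (eventually_ge_atTop 1)).exists
  obtain ⟨n, -, f, f0, f1, f2, f3⟩ := h d hd1
  have hd0 : (1 : ℝ) ≤ d := by exact_mod_cast hd1
  refine ⟨d + 1, fun s => Eb s (oddExt f), linearSum (oddExt f), by omega,
    ⟨n + 1, oddExt f, fun x => ?_, bdeg_oddExt (bdeg_of_degree f2), fun _ => rfl⟩, fun s => ?_,
    hasDerivAt_Eb_zero _, ?_⟩
  · unfold oddExt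
    rcases sg_cases (x 0) with h0 | h0 <;> rcases f0 (fun i => x 0 * x i.succ) with h1 | h1 <;>
      rw [h1, show ((x 0 : ℤ) : ℝ) = _ from h0] <;> norm_num
  · show Eb (-s) (oddExt f) = - Eb s (oddExt f)
    rw [Eb_neg]
    simp only [oddExt_neg]
    have := Eb_smul s (-1) (oddExt f)
    simpa using this
  · rw [growth_linearSum, cubeAvg_oddExt_mul, f1, zero_add]
    refine lt_of_lt_of_le ?_ f3
    have e1 : alpha - (alpha - b) / 2 = (alpha - b) / 2 + b := by ring
    rw [e1, Real.rpow_add (by linarith), ← mul_assoc]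
    have e2 : (((d + 1 : ℕ) : ℝ)) ^ b ≤ 2 * (d : ℝ) ^ b := by
      calc (((d + 1 : ℕ) : ℝ)) ^ b ≤ (2 * (d : ℝ)) ^ b :=
            Real.rpow_le_rpow (by positivity) (by push_cast; linarith) hb0.le
        _ = 2 ^ b * (d : ℝ) ^ b := Real.mul_rpow (by norm_num) (by linarith)
        _ ≤ 2 * (d : ℝ) ^ b := by
          refine mul_le_mul_of_nonneg_right ?_ (by positivity)
          calc (2 : ℝ) ^ b ≤ 2 ^ (1 : ℝ) := Real.rpow_le_rpow_of_exponent_le (by norm_num)
                (by linarith [alpha_le_one])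
            _ = 2 := Real.rpow_one 2
    exact e2.trans_lt (mul_lt_mul_of_pos_right hd (Real.rpow_pos_of_pos (by linarith) b))

/-- Solving the coin problem with small degree. -/
theorem coin_upper {η b : ℝ} (hη : η < 1) (hb0 : 0 < b) (hb : b < alpha) :
    ∃ C : ℝ, 0 < C ∧ ∀ t : ℝ, 0 < t → t ≤ 1 → ∃ (n : ℕ) (f : Cube n → ℝ), IsBoolean f ∧
      (degree f : ℝ) ≤ C * (1 / t) ^ (1 / b) ∧ η ≤ Eb t f ∧ Eb (-t) f ≤ -η := by
  obtain ⟨d, γ, L, hd, hR, hodd, hD, hL⟩ := exists_base hb0 hb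
  have hd1 : (1 : ℝ) < d := by exact_mod_cast (by omega : 1 < d)
  set lam : ℝ := (d : ℝ) ^ b with hlam
  have hl1 : 1 < lam := Real.one_lt_rpow hd1 hb0
  have hγ0 : γ 0 = 0 := by
    have := hodd 0
    rw [neg_zero] at this
    linarith
  obtain ⟨δ, hδ0, hδ1, hg⟩ : ∃ δ : ℝ, 0 < δ ∧ δ ≤ 1 ∧ ∀ s, 0 < s → s < δ → lam * s ≤ γ s := by
    have h1 := (hasDerivAt_iff_tendsto_slope.1 hD).eventually (lt_mem_nhds hL)
    rw [eventually_nhdsWithin_iff, Metric.eventually_nhds_iff] at h1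
    obtain ⟨r, hr, h2⟩ := h1
    refine ⟨min r 1, lt_min hr one_pos, min_le_right _ _, fun s hs0 hs => ?_⟩
    have h3 := h2 (y := s) (by
      rw [Real.dist_eq, sub_zero, abs_of_pos hs0]
      exact hs.trans_le (min_le_left _ _)) hs0.ne'
    rw [slope_def_field, hγ0, sub_zero, sub_zero, lt_div_iff₀ hs0] at h3
    exact h3.le
  obtain ⟨m, hm⟩ := exists_pow_lt_of_lt_one (show 0 < 1 - η by linarith)
    (show 1 - δ / 2 < 1 by linarith)
  refine ⟨3 ^ m * d, by positivity, fun t ht0 ht1 => ?_⟩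
  obtain ⟨j, hj1, hj2⟩ := exists_nat_pow_near (x := 1 / t) (one_le_one_div ht0 ht1) hl1
  obtain ⟨i, hi, h3⟩ := grow hR (by linarith) hg (j + 1) t ht0 ht1 (by
    rw [div_lt_iff₀ ht0] at hj2
    linarith)
  have h4 : γ^[i] t ≤ 1 :=
    (le_abs_self _).trans ((hR.iterate i).abs_le (by rwa [abs_of_pos ht0]))
  have h5 := mu_iterate hδ0 m h3 h4
  obtain ⟨n, f, f0, f1, f2⟩ := (Rz.maj.iterate m).comp (hR.iterate i)
  refine ⟨n, f, f0, ?_, ?_, ?_⟩
  · have h6 : (degree f : ℝ) ≤ 3 ^ m * (d : ℝ) ^ i := by exact_mod_cast growth_degree_le f1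
    refine h6.trans ?_
    rw [mul_assoc]
    refine mul_le_mul_of_nonneg_left ?_ (by positivity)
    calc (d : ℝ) ^ i ≤ (d : ℝ) ^ (j + 1) := pow_le_pow_right₀ hd1.le hi
      _ = d * (lam ^ j) ^ (1 / b) := by
          rw [pow_succ', hlam, ← Real.rpow_natCast ((d : ℝ) ^ b), ← Real.rpow_mul (by linarith),
            ← Real.rpow_mul (by linarith), show b * (j * (1 / b)) = j by field_simp,
            Real.rpow_natCast]
      _ ≤ d * (1 / t) ^ (1 / b) := mul_le_mul_of_nonneg_left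
          (Real.rpow_le_rpow (by positivity) hj1 (by positivity)) (by linarith)
  · rw [f2, Function.comp_apply]
    linarith
  · rw [f2, Function.comp_apply, iterate_odd hodd,
      iterate_odd (γ := mu) (fun s => by unfold mu; ring)]
    linarith

theorem linearSum_le_max {n d : ℕ} (hd : 1 ≤ d) {f : Cube n → ℝ} (hf : IsBoolean f)
    (h : degree f ≤ d) : linearSum f ≤ maxLinearSum d := by
  rcases Nat.eq_zero_or_pos n with rfl | hn
  · have : linearSum f = 0 := by simp [linearSum]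
    linarith [one_le_maxLinearSum hd]
  · exact le_maxLinearSum hn hf h

/-- The advantage of a Boolean function of degree at most `d` in the coin problem. -/
theorem coin_lower {n d : ℕ} (hd : 1 ≤ d) {f : Cube n → ℝ} (hf : IsBoolean f)
    (h : degree f ≤ d) {t : ℝ} (h0 : 0 < t) (h1 : t < 1) :
    Eb t f - Eb (-t) f ≤ 2 * t * maxLinearSum d / (1 - t) :=
  diff_le (by linarith [one_le_maxLinearSum hd]) (fun β σ => linearSum_le_max hd (fun _ => hf _)
    (growth_degree_le ((bdeg_of_degree h).relabel fun i c => if β i then σ else c))) h0 h1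

/-- the degrees that suffice for the coin problem -/
def degs (η t : ℝ) : Set ℕ :=
  {d | ∃ (n : ℕ) (f : Cube n → ℝ), IsBoolean f ∧ degree f ≤ d ∧ η ≤ Eb t f ∧ Eb (-t) f ≤ -η}

theorem isLeast_degs {η t : ℝ} (hη : η < 1) (h0 : 0 < t) (h1 : t ≤ 1) :
    IsLeast (degs η t) (sInf (degs η t)) := by
  obtain ⟨C, -, h⟩ := coin_upper hη (b := 1 / 2) (by norm_num) half_lt_alpha
  obtain ⟨n, f, f0, -, f2, f3⟩ := h t h0 h1
  exact ⟨Nat.sInf_mem ⟨degree f, n, f, f0, le_rfl, f2, f3⟩, fun _ hd => Nat.sInf_le hd⟩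

theorem tendsto_degs {η : ℝ} (hη0 : 0 < η) (hη : η < 1) :
    Tendsto (fun t : ℝ => Real.log (sInf (degs η t) : ℕ) / Real.log (1 / t)) (𝓝[>] 0)
      (𝓝 (1 / alpha)) := by
  have ha : 0 < alpha := by linarith [half_lt_alpha]
  have hu : Tendsto (fun t : ℝ => Real.log (1 / t)) (𝓝[>] 0) atTop := by
    simp only [one_div]
    exact Real.tendsto_log_atTop.comp tendsto_inv_nhdsGT_zero
  have hsmall : ∀ᶠ t : ℝ in 𝓝[>] 0, 0 < t ∧ t < 1 / 2 :=
    Ioo_mem_nhdsGT (show (0 : ℝ) < 1 / 2 by norm_num)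
  have hlow : ∀ t : ℝ, 0 < t → t < 1 / 2 → Real.log (η / 2) + Real.log (1 / t) ≤
      alpha * Real.log ((sInf (degs η t) : ℕ) + 2) := by
    intro t h0 h1
    obtain ⟨n, f, f0, f1, f2, f3⟩ := (isLeast_degs hη h0 (by linarith)).1
    have h2 := coin_lower (d := sInf (degs η t) + 1) (by omega) f0 (by omega) h0 (by linarith)
    have h3 := maxLinearSum_le (d := sInf (degs η t) + 1) (by omega)
    have h4 := one_le_maxLinearSum (d := sInf (degs η t) + 1) (by omega)
    rw [le_div_iff₀ (by linarith)] at h2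
    have h5 : η / 2 * (1 / t) ≤ maxLinearSum (sInf (degs η t) + 1) := by
      rw [mul_one_div, div_le_iff₀ h0]
      nlinarith
    rw [← Real.log_mul (by positivity) (by positivity), ← Real.log_rpow (by positivity)]
    refine Real.log_le_log (by positivity) (h5.trans (h3.trans (le_of_eq ?_)))
    push_cast
    ring_nf
  rw [tendsto_order]
  constructor
  · intro y hy
    have h1 : 0 < 1 - alpha * y := by
      rw [lt_div_iff₀ ha] at hy
      linarith
    filter_upwards [hsmall, hu.eventually_gt_atTop 0,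
      hu.eventually_gt_atTop (alpha * Real.log 4 - Real.log (η / 2)),
      (hu.const_mul_atTop h1).eventually_gt_atTop (alpha * Real.log 2 - Real.log (η / 2))]
      with t ht h2 h3 h4
    have h5 := hlow t ht.1 ht.2
    set D : ℕ := sInf (degs η t)
    have h6 : (2 : ℝ) ≤ D := by
      by_contra h7
      have h8 : Real.log ((D : ℝ) + 2) ≤ Real.log 4 :=
        Real.log_le_log (by positivity) (by linarith)
      nlinarith
    have h7 : Real.log ((D : ℝ) + 2) ≤ Real.log 2 + Real.log D := by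
      rw [← Real.log_mul (by norm_num) (by linarith)]
      exact Real.log_le_log (by positivity) (by linarith)
    rw [lt_div_iff₀ h2]
    refine lt_of_mul_lt_mul_left ?_ ha.le
    nlinarith
  · intro y hy
    have hy0 : 0 < y := (one_div_pos.2 ha).trans hy
    obtain ⟨b, hb1, hb2⟩ := exists_between (show 1 / y < alpha by
      rw [gt_iff_lt, div_lt_iff₀ ha] at hy
      rw [div_lt_iff₀ hy0]
      linarith)
    have hb0 : 0 < b := (one_div_pos.2 hy0).trans hb1
    have h1 : 0 < y - 1 / b := by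
      rw [sub_pos, div_lt_iff₀ hb0]
      rw [div_lt_iff₀ hy0] at hb1
      linarith
    obtain ⟨C, hC, h⟩ := coin_upper hη hb0 hb2
    filter_upwards [hsmall, hu.eventually_gt_atTop 0,
      (hu.const_mul_atTop h1).eventually_gt_atTop (Real.log C)] with t ht h2 h3
    obtain ⟨n, f, f0, f1, f2, f3⟩ := h t ht.1 (by linarith [ht.2])
    have h4 : sInf (degs η t) ≤ degree f := Nat.sInf_le ⟨n, f, f0, le_rfl, f2, f3⟩
    have h5 : ((sInf (degs η t) : ℕ) : ℝ) ≤ C * (1 / t) ^ (1 / b) :=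
      le_trans (by exact_mod_cast h4) f1
    rw [div_lt_iff₀ h2]
    rcases Nat.eq_zero_or_pos (sInf (degs η t)) with h6 | h6
    · rw [h6, Nat.cast_zero, Real.log_zero]
      positivity
    · have h7 := Real.log_le_log (by exact_mod_cast h6) h5
      have ht0 := ht.1
      rw [Real.log_mul hC.ne' (by positivity), Real.log_rpow (by positivity)] at h7
      linarith

end

end Vale.Agent.N047C
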