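import Vale.Agent.N047C.Tilt
import Mathlib.Analysis.SpecialFunctions.Log.NegMulLog

/-! The square-root bound for nonnegative combinations of affine subspaces of the cube. -/

open Finset

namespace Vale.Agent.N047C

open Vale.Agent.P047 Vale.Agent.P047.H594

noncomputable section

variable {n : ℕ}

/-- closed under products of three points: an affine subspace over the field of two elements -/
def Tern (A : Finset (Cube n)) : Prop := ∀ x ∈ A, ∀ y ∈ A, ∀ z ∈ A, x * y * z ∈ A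

theorem ne_iff_neg {a b : ℤˣ} : a ≠ b ↔ a = -b := by
  rcases Int.units_eq_one_or a with h | h <;> rcases Int.units_eq_one_or b with h' | h' <;>
    subst h <;> subst h' <;> decide

theorem mul_of_ne {a b : ℤˣ} (h : a ≠ b) : a * b = -1 := by
  rw [ne_iff_neg.1 h, neg_mul, Int.units_mul_self]

/-- `J` is an information set -/
structure Info (A : Finset (Cube n)) (J : Finset (Fin n)) : Prop where
  surj : ∀ z : Cube n, ∃ x ∈ A, ∀ j ∈ J, x j = z j
  inj : ∀ x ∈ A, ∀ y ∈ A, (∀ j ∈ J, x j = y j) → x = y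

theorem exists_info {A : Finset (Cube n)} (hA : Tern A) (hne : A.Nonempty) : ∃ J, Info A J := by
  classical
  obtain ⟨J, hJ, hmax⟩ := Finset.exists_max_image
    (univ.filter fun J : Finset (Fin n) => ∀ z : Cube n, ∃ x ∈ A, ∀ j ∈ J, x j = z j) card
    ⟨∅, mem_filter.2 ⟨mem_univ _, fun _ => ⟨_, hne.choose_spec, by simp⟩⟩⟩
  have hs := (mem_filter.1 hJ).2
  refine ⟨J, hs, fun x hx y hy hxy => ?_⟩
  by_contra hne'
  obtain ⟨i, hi⟩ := Function.ne_iff.1 hne'
  have hiJ : i ∉ J := fun h => hi (hxy i h)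
  have h1 := hmax (insert i J) (mem_filter.2 ⟨mem_univ _, fun z => ?_⟩)
  · rw [card_insert_of_notMem hiJ] at h1
    omega
  obtain ⟨v, hv, hvz⟩ := hs z
  by_cases h : v i = z i
  · refine ⟨v, hv, fun j hj => ?_⟩
    rcases mem_insert.1 hj with rfl | hj
    · exact h
    · exact hvz j hj
  · refine ⟨v * x * y, hA v hv x hx y hy, fun j hj => ?_⟩
    simp only [Pi.mul_apply]
    rcases mem_insert.1 hj with rfl | hj
    · rw [mul_assoc, mul_of_ne hi, ne_iff_neg.1 h]
      simp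
    · rw [mul_assoc, hxy j hj, Int.units_mul_self, mul_one, hvz j hj]

theorem Info.sum_prod {A : Finset (Cube n)} {J : Finset (Fin n)} (h : Info A J)
    (g : Fin n → ℤˣ → ℝ) : ∑ x ∈ A, ∏ j ∈ J, g j (x j) = ∏ j ∈ J, ∑ c, g j c := by
  classical
  have h1 : ∑ x ∈ A, ∏ j ∈ J, g j (x j) = ∑ y : J → ℤˣ, ∏ j : J, g j (y j) := by
    refine Finset.sum_bij (fun x _ => fun j : J => x j) (fun _ _ => mem_univ _) ?_ ?_ ?_
    · intro x hx y hy hxy
      exact h.inj x hx y hy fun j hj => congrFun hxy ⟨j, hj⟩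
    · intro y _
      obtain ⟨x, hx, hxy⟩ := h.surj fun j => if hj : j ∈ J then y ⟨j, hj⟩ else 1
      refine ⟨x, hx, funext fun j => ?_⟩
      rw [hxy j j.2, dif_pos j.2]
    · intro x _
      exact (Finset.prod_coe_sort J fun j => g j (x j)).symm
  rw [h1, sum_prod_fun (fun (j : J) c => g j c)]
  exact Finset.prod_coe_sort J fun j => ∑ c, g j c

theorem Info.card_eq {A : Finset (Cube n)} {J : Finset (Fin n)} (h : Info A J) :
    (A.card : ℝ) = 2 ^ J.card := by
  have h1 := h.sum_prod fun _ _ => 1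
  simpa [Fintype.card_units_int] using h1

theorem Info.flip {A : Finset (Cube n)} {J : Finset (Fin n)} (h : Info A J) (hA : Tern A)
    {i : Fin n} (m : ℕ) : ∀ x ∈ A, ∀ y ∈ A, (J.filter fun j => x j ≠ y j).card = m → x i ≠ y i →
      ∃ j ∈ J, ∃ u : Cube n, (∀ v ∈ A, v * u ∈ A) ∧ u j = -1 ∧ (∀ k ∈ J, k ≠ j → u k = 1) ∧
        u i = -1 := by
  classical
  induction m with
  | zero =>
    intro x hx y hy hc hi
    rw [card_eq_zero, filter_eq_empty_iff] at hc
    exact absurd (congrFun (h.inj x hx y hy fun j hj => not_not.1 (hc hj)) i) hi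
  | succ m ih =>
    intro x hx y hy hc hi
    obtain ⟨j, hj⟩ := card_pos.1 (show 0 < (J.filter fun j => x j ≠ y j).card by omega)
    obtain ⟨hjJ, hjne⟩ := mem_filter.1 hj
    obtain ⟨z, hz, hzx⟩ := h.surj (Function.update x j (y j))
    have hzj : z j = y j := by rw [hzx j hjJ, Function.update_self]
    have hzk : ∀ k ∈ J, k ≠ j → z k = x k := fun k hk hkj => by
      rw [hzx k hk, Function.update_of_ne hkj]
    by_cases hzi : x i = z i
    · refine ih z hz y hy ?_ (hzi ▸ hi)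
      have e : (J.filter fun k => z k ≠ y k) = (J.filter fun k => x k ≠ y k).erase j := by
        ext k
        simp only [mem_filter, mem_erase]
        constructor
        · rintro ⟨hk, hk2⟩
          have hkj : k ≠ j := fun e => hk2 (e ▸ hzj)
          exact ⟨hkj, hk, hzk k hk hkj ▸ hk2⟩
        · rintro ⟨hkj, hk, hk2⟩
          exact ⟨hk, (hzk k hk hkj).symm ▸ hk2⟩
      rw [e, card_erase_of_mem hj, hc]
      rfl
    · refine ⟨j, hjJ, x * z, fun v hv => ?_, ?_, fun k hk hkj => ?_, mul_of_ne hzi⟩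
      · rw [← mul_assoc]
        exact hA v hv x hx z hz
      · rw [Pi.mul_apply, hzj]
        exact mul_of_ne hjne
      · rw [Pi.mul_apply, hzk k hk hkj, Int.units_mul_self]

/-- the tilted law on `A`, read on the information set -/
def rho (J : Finset (Fin n)) (τ : Fin n → ℝ) (x : Cube n) : ℝ := ∏ j ∈ J, w (τ j) (x j)

theorem Info.sum_rho {A : Finset (Cube n)} {J : Finset (Fin n)} (h : Info A J) (τ : Fin n → ℝ) :
    ∑ x ∈ A, rho J τ x = 1 := by
  unfold rho
  rw [h.sum_prod fun j c => w (τ j) c]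
  simp only [sum_w, prod_const_one]

theorem rho_nonneg (J : Finset (Fin n)) {τ : Fin n → ℝ} (hτ : ∀ j, |τ j| ≤ 1) (x : Cube n) :
    0 ≤ rho J τ x := prod_nonneg fun j _ => w_nonneg (hτ j) _

theorem Info.mean_le {A : Finset (Cube n)} {J : Finset (Fin n)} (h : Info A J) (hA : Tern A)
    {i : Fin n} {x y : Cube n} (hx : x ∈ A) (hy : y ∈ A) (hi : x i ≠ y i) {τ : Fin n → ℝ} {t : ℝ}
    (hτ : ∀ j, |τ j| ≤ t) (ht : t ≤ 1) : |∑ v ∈ A, rho J τ v * sg (v i)| ≤ t := by
  classical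
  obtain ⟨j, hj, u, hu, huj, huk, hui⟩ := h.flip hA _ x hx y hy rfl hi
  have huu : ∀ v : Cube n, v * u * u = v := fun v => by
    funext k
    simp only [Pi.mul_apply]
    rw [mul_assoc, Int.units_mul_self, mul_one]
  have hsw : ∀ F : Cube n → ℝ, ∑ v ∈ A, F (v * u) = ∑ v ∈ A, F v := fun F =>
    Finset.sum_nbij' (fun v => v * u) (fun v => v * u) hu hu (fun v _ => huu v) (fun v _ => huu v)
      fun _ _ => rfl
  have h1 : ∑ v ∈ A, rho J τ v * sg (v i) = - ∑ v ∈ A, rho J τ (v * u) * sg (v i) := by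
    rw [← hsw fun v => rho J τ v * sg (v i), ← sum_neg_distrib]
    refine sum_congr rfl fun v _ => ?_
    rw [Pi.mul_apply, hui, sg_mul, sg_neg_one]
    ring
  have h2 : ∀ v : Cube n, |rho J τ v - rho J τ (v * u)| ≤ t * (rho J τ v + rho J τ (v * u)) := by
    intro v
    have e1 : rho J τ v = w (τ j) (v j) * ∏ k ∈ J.erase j, w (τ k) (v k) :=
      (mul_prod_erase J (fun k => w (τ k) (v k)) hj).symm
    have e2 : rho J τ (v * u) = w (τ j) (-v j) * ∏ k ∈ J.erase j, w (τ k) (v k) := by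
      rw [rho, ← mul_prod_erase J (fun k => w (τ k) ((v * u) k)) hj, Pi.mul_apply, huj,
        mul_neg_one]
      congr 1
      refine prod_congr rfl fun k hk => ?_
      rw [Pi.mul_apply, huk k (mem_of_mem_erase hk) (ne_of_mem_erase hk), mul_one]
    have e3 : 0 ≤ ∏ k ∈ J.erase j, w (τ k) (v k) :=
      prod_nonneg fun k _ => w_nonneg ((hτ k).trans ht) _
    rw [e1, e2, ← sub_mul, ← add_mul, abs_mul, abs_of_nonneg e3, ← mul_assoc]
    refine mul_le_mul_of_nonneg_right ?_ e3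
    have e4 : w (τ j) (v j) - w (τ j) (-v j) = τ j * sg (v j) := by
      simp only [w, sg_neg]; ring
    have e5 : w (τ j) (v j) + w (τ j) (-v j) = 1 := by
      simp only [w, sg_neg]; ring
    rw [e4, e5, abs_mul, abs_sg, mul_one, mul_one]
    exact hτ j
  have h3 : 2 * ∑ v ∈ A, rho J τ v * sg (v i) =
      ∑ v ∈ A, (rho J τ v - rho J τ (v * u)) * sg (v i) := by
    simp only [sub_mul, sum_sub_distrib]
    linarith
  have h4 : |∑ v ∈ A, (rho J τ v - rho J τ (v * u)) * sg (v i)| ≤ 2 * t := by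
    refine (abs_sum_le_sum_abs _ _).trans ?_
    calc _ ≤ ∑ v ∈ A, t * (rho J τ v + rho J τ (v * u)) := by
          refine sum_le_sum fun v _ => ?_
          rw [abs_mul, abs_sg, mul_one]
          exact h2 v
      _ = 2 * t := by
          rw [← mul_sum, sum_add_distrib, hsw (rho J τ), h.sum_rho]
          ring
  rw [← h3, abs_mul, abs_two] at h4
  linarith

theorem rho_zero (J : Finset (Fin n)) (x : Cube n) :
    rho J (fun _ => 0) x = (2 ^ J.card : ℝ)⁻¹ := by
  simp [rho, w]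

/-- means of a coordinate under the tilted and the uniform law on `A` -/
theorem Info.mean_close {A : Finset (Cube n)} {J : Finset (Fin n)} (h : Info A J) (hA : Tern A)
    (i : Fin n) {τ : Fin n → ℝ} {t : ℝ} (hτ : ∀ j, |τ j| ≤ t) (ht0 : 0 ≤ t) (ht : t ≤ 1) :
    |∑ v ∈ A, rho J τ v * sg (v i) - ∑ v ∈ A, rho J (fun _ => 0) v * sg (v i)| ≤ t := by
  by_cases hc : ∃ x ∈ A, ∃ y ∈ A, x i ≠ y i
  · obtain ⟨x, hx, y, hy, hi⟩ := hc
    have h0 := h.mean_le hA hx hy hi (τ := fun _ => 0) (t := 0) (by simp) zero_le_one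
    rw [abs_nonpos_iff.1 h0, sub_zero]
    exact h.mean_le hA hx hy hi hτ ht
  · push Not at hc
    obtain ⟨a, ha, -⟩ := h.surj 1
    have e : ∀ τ : Fin n → ℝ, ∑ v ∈ A, rho J τ v * sg (v i) = sg (a i) := fun τ => by
      rw [sum_congr rfl fun v hv => by rw [hc v hv a ha], ← sum_mul, h.sum_rho, one_mul]
    rw [e, e, sub_self, abs_zero]
    exact ht0

theorem Info.mean_zero {A : Finset (Cube n)} {J : Finset (Fin n)} (h : Info A J) (hA : Tern A)
    {i : Fin n} (hi : i ∈ J) : ∑ v ∈ A, rho J (fun _ => 0) v * sg (v i) = 0 := by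
  obtain ⟨x, hx, h1⟩ := h.surj 1
  obtain ⟨y, hy, h2⟩ := h.surj (-1)
  refine abs_nonpos_iff.1 (h.mean_le hA hx hy ?_ (τ := fun _ => 0) (t := 0) (by simp) zero_le_one)
  rw [h1 i hi, h2 i hi]
  simp only [Pi.one_apply, Pi.neg_apply]
  decide

theorem Info.abs_mean {A : Finset (Cube n)} {J : Finset (Fin n)} (h : Info A J) (i : Fin n) :
    |∑ v ∈ A, rho J (fun _ => 0) v * sg (v i)| ≤ 1 := by
  refine (abs_sum_le_sum_abs _ _).trans ?_
  rw [← h.sum_rho fun _ => 0]
  refine sum_le_sum fun v _ => ?_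
  rw [abs_mul, abs_sg, mul_one, abs_of_nonneg (rho_nonneg J (by simp) v)]

theorem exp_le_one_add {u : ℝ} (hu : |u| ≤ 1 / 2) : Real.exp (u - u ^ 2) ≤ 1 + u := by
  have h := abs_le.1 hu
  have h1 : 1 ≤ (1 + u) * Real.exp (u ^ 2 - u) := by
    rcases le_total 0 u with h0 | h0
    · have := Real.add_one_le_exp (u ^ 2 - u)
      nlinarith [mul_nonneg h0 (sq_nonneg u)]
    · have h2 : 0 ≤ u ^ 2 - u := by nlinarith
      have h3 := Real.quadratic_le_exp_of_nonneg h2
      have h4 : 0 ≤ u + (1 + u) * (1 - u) ^ 2 / 2 := by nlinarith [sq_nonneg (u + 1 / 2)]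
      nlinarith [mul_nonneg (sq_nonneg u) h4]
  have h5 : Real.exp (u - u ^ 2) * Real.exp (u ^ 2 - u) = 1 := by
    rw [← Real.exp_add]; simp
  nlinarith [Real.exp_pos (u - u ^ 2), Real.exp_pos (u ^ 2 - u)]

theorem exp_tangent (y v : ℝ) : Real.exp v * (1 + y - v) ≤ Real.exp y := by
  have h := Real.add_one_le_exp (y - v)
  have h2 : Real.exp y = Real.exp v * Real.exp (y - v) := by
    rw [← Real.exp_add]; congr 1; ring
  rw [h2]
  exact mul_le_mul_of_nonneg_left (by linarith) (Real.exp_pos v).le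

/-- The tilted mass of an affine subspace of codimension at most `κ`. -/
theorem tilt {A : Finset (Cube n)} (hA : Tern A) {κ : ℕ}
    (hκ : A.Nonempty → 2 ^ n ≤ A.card * 2 ^ κ) (ε : Cube n) :
    ∃ l : ℝ, ∑ x ∈ A, ∑ i, sg (ε i) * sg (x i) = A.card * l ∧ |l| ≤ κ ∧
      ∀ t : ℝ, 0 ≤ t → t ≤ 1 / 2 → ∀ v : ℝ,
        (A.card / 2 ^ n) * (Real.exp v * (1 + (t * l - 2 * t ^ 2 * κ) - v)) ≤
          ∑ x ∈ A, ∏ i, w (t * sg (ε i)) (x i) := by
  classical
  rcases A.eq_empty_or_nonempty with rfl | hne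
  · exact ⟨0, by simp, by simp, fun t _ _ v => by simp⟩
  obtain ⟨J, h⟩ := exists_info hA hne
  have hc := h.card_eq
  have hJ : Jᶜ.card + J.card = n := by
    rw [card_compl, Fintype.card_fin]
    have := card_le_univ J
    rw [Fintype.card_fin] at this
    omega
  have hk : Jᶜ.card ≤ κ := by
    have h1 : ((2 : ℕ) ^ n : ℝ) ≤ A.card * 2 ^ κ := by exact_mod_cast hκ hne
    rw [hc, ← pow_add] at h1
    have h2 : n ≤ J.card + κ := by
      have : (2 : ℝ) ^ n ≤ 2 ^ (J.card + κ) := by exact_mod_cast h1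
      exact (pow_le_pow_iff_right₀ one_lt_two).1 this
    omega
  have hkr : (Jᶜ.card : ℝ) ≤ κ := by exact_mod_cast hk
  set m : Fin n → ℝ := fun i => ∑ v ∈ A, rho J (fun _ => 0) v * sg (v i) with hm
  refine ⟨∑ i ∈ Jᶜ, sg (ε i) * m i, ?_, ?_, fun t ht0 ht v => ?_⟩
  · have e1 : ∑ i ∈ Jᶜ, sg (ε i) * m i = ∑ i, sg (ε i) * m i := by
      refine sum_subset (subset_univ _) fun i _ hi => ?_
      rw [show m i = 0 from h.mean_zero hA (by simpa using hi), mul_zero]
    rw [e1, sum_comm, mul_sum]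
    refine sum_congr rfl fun i _ => ?_
    simp only [hm, rho_zero, hc]
    rw [← mul_sum, ← mul_sum]
    field_simp
  · refine (abs_sum_le_sum_abs _ _).trans (le_trans ?_ hkr)
    rw [card_eq_sum_ones, Nat.cast_sum]
    refine sum_le_sum fun i _ => ?_
    rw [abs_mul, abs_sg, one_mul, Nat.cast_one]
    exact h.abs_mean i
  set τ : Fin n → ℝ := fun i => t * sg (ε i) with hτ
  have hτt : ∀ j, |τ j| ≤ t := fun j => by
    rw [hτ, abs_mul, abs_sg, mul_one, abs_of_nonneg ht0]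
  have hp : (A.card : ℝ) / 2 ^ n = (2 ^ Jᶜ.card : ℝ)⁻¹ := by
    rw [hc, show (2 : ℝ) ^ n = 2 ^ Jᶜ.card * 2 ^ J.card by rw [← pow_add, hJ]]
    field_simp
  have h1 : ∀ x : Cube n, (2 ^ Jᶜ.card : ℝ)⁻¹ * (rho J τ x * (Real.exp v *
      (1 + ∑ i ∈ Jᶜ, (τ i * sg (x i) - t ^ 2) - v))) ≤ ∏ i, w (τ i) (x i) := by
    intro x
    rw [← prod_mul_prod_compl J, mul_left_comm]
    refine mul_le_mul_of_nonneg_left ?_ (rho_nonneg J (fun j => (hτt j).trans (by linarith)) x)
    have e2 : ∏ i ∈ Jᶜ, w (τ i) (x i) = (2 ^ Jᶜ.card : ℝ)⁻¹ * ∏ i ∈ Jᶜ, (1 + τ i * sg (x i)) := by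
      unfold w
      rw [prod_div_distrib, prod_const]
      field_simp
    rw [e2]
    refine mul_le_mul_of_nonneg_left ((exp_tangent _ v).trans ?_) (by positivity)
    rw [Real.exp_sum]
    refine prod_le_prod (fun i _ => (Real.exp_pos _).le) fun i _ => ?_
    have e3 : |τ i * sg (x i)| = t := by
      rw [hτ, abs_mul, abs_mul, abs_sg, abs_sg, mul_one, mul_one, abs_of_nonneg ht0]
    have e4 : t ^ 2 = (τ i * sg (x i)) ^ 2 := by rw [← e3, sq_abs]
    rw [e4]
    exact exp_le_one_add (e3 ▸ ht)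
  refine le_trans ?_ (sum_le_sum fun x _ => h1 x)
  rw [← mul_sum, hp]
  refine mul_le_mul_of_nonneg_left ?_ (by positivity)
  have e5 : ∑ x ∈ A, rho J τ x * (Real.exp v * (1 + ∑ i ∈ Jᶜ, (τ i * sg (x i) - t ^ 2) - v)) =
      Real.exp v * (1 + ∑ i ∈ Jᶜ, (τ i * ∑ x ∈ A, rho J τ x * sg (x i) - t ^ 2) - v) := by
    have e6 : ∀ x : Cube n, rho J τ x *
        (Real.exp v * (1 + ∑ i ∈ Jᶜ, (τ i * sg (x i) - t ^ 2) - v)) =
        Real.exp v * (rho J τ x * (1 - v) +
          ∑ i ∈ Jᶜ, (τ i * (rho J τ x * sg (x i)) - t ^ 2 * rho J τ x)) := by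
      intro x
      have : ∑ i ∈ Jᶜ, (τ i * (rho J τ x * sg (x i)) - t ^ 2 * rho J τ x) =
          rho J τ x * ∑ i ∈ Jᶜ, (τ i * sg (x i) - t ^ 2) := by
        rw [mul_sum]
        exact sum_congr rfl fun i _ => by ring
      rw [this]; ring
    rw [sum_congr rfl fun x _ => e6 x, ← mul_sum, sum_add_distrib, ← sum_mul, h.sum_rho, sum_comm]
    congr 1
    have e7 : ∀ i, ∑ x ∈ A, (τ i * (rho J τ x * sg (x i)) - t ^ 2 * rho J τ x) =
        τ i * ∑ x ∈ A, rho J τ x * sg (x i) - t ^ 2 := fun i => by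
      rw [sum_sub_distrib, ← mul_sum, ← mul_sum, h.sum_rho, mul_one]
    rw [sum_congr rfl fun i _ => e7 i]
    ring
  rw [e5]
  refine mul_le_mul_of_nonneg_left ?_ (Real.exp_pos v).le
  have e8 : ∑ i ∈ Jᶜ, (t * (sg (ε i) * m i) - 2 * t ^ 2) ≤
      ∑ i ∈ Jᶜ, (τ i * ∑ x ∈ A, rho J τ x * sg (x i) - t ^ 2) := by
    refine sum_le_sum fun i _ => ?_
    have e9 := h.mean_close hA i hτt ht0 (by linarith)
    have e10 : |τ i * (∑ x ∈ A, rho J τ x * sg (x i) - m i)| ≤ t * t := by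
      rw [abs_mul]
      exact mul_le_mul (hτt i) e9 (abs_nonneg _) ht0
    have e11 := (abs_le.1 e10).1
    have e12 : t * (sg (ε i) * m i) = τ i * m i := by rw [hτ]; ring
    rw [e12]
    nlinarith
  rw [sum_sub_distrib, ← mul_sum, sum_const, nsmul_eq_mul] at e8
  nlinarith [sq_nonneg t]

theorem optim {H D L : ℝ} (hH : 0 ≤ H) (hD : 0 ≤ D) (hL : L ≤ D)
    (h : ∀ t : ℝ, 0 ≤ t → t ≤ 1 / 2 → t * L ≤ H + 2 * t ^ 2 * D) : L ≤ 3 * √(H * D) := by
  have hr0 := Real.sqrt_nonneg (H * D)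
  have hr : √(H * D) ^ 2 = H * D := Real.sq_sqrt (mul_nonneg hH hD)
  rcases le_total D H with h1 | h1
  · have : D ≤ √(H * D) := Real.le_sqrt_of_sq_le (by nlinarith)
    linarith
  rcases hD.eq_or_lt with h2 | h2
  · linarith
  rcases hH.eq_or_lt with h3 | h3
  · refine le_trans (le_of_forall_pos_le_add fun e he => ?_) (mul_nonneg (by norm_num) hr0)
    have h4 : 0 < min (1 / 2) (e / (2 * D)) := lt_min (by norm_num) (by positivity)
    have h5 := h _ h4.le (min_le_left _ _)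
    have h6 : min (1 / 2) (e / (2 * D)) * (2 * D) ≤ e :=
      (le_div_iff₀ (by positivity)).1 (min_le_right _ _)
    rw [← h3] at h5
    refine le_of_mul_le_mul_left ?_ h4
    nlinarith
  · have h4 : 0 < √(H * D) := Real.sqrt_pos.2 (mul_pos h3 h2)
    have h5 : √(H * D) ≤ D := Real.sqrt_le_iff.2 ⟨h2.le, by nlinarith⟩
    have h6 := h (√(H * D) / (2 * D)) (by positivity) (by
      rw [div_le_iff₀ (by positivity)]; linarith)
    have h7 : 2 * (√(H * D) / (2 * D)) ^ 2 * D = H / 2 := by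
      rw [div_pow, hr]; field_simp
    rw [h7, div_mul_eq_mul_div, div_le_iff₀ (by positivity)] at h6
    refine le_of_mul_le_mul_left ?_ h4
    nlinarith

/-- The square-root bound, in level-one form. -/
theorem cone_bound {ι : Type} [Fintype ι] {c : ι → ℝ} (hc : ∀ a, 0 ≤ c a)
    {A : ι → Finset (Cube n)} (hA : ∀ a, Tern (A a)) {κ : ι → ℕ}
    (hκ : ∀ a, (A a).Nonempty → 2 ^ n ≤ (A a).card * 2 ^ κ a) {f : Cube n → ℝ}
    (hf : ∀ x, f x = ∑ a, if x ∈ A a then c a else 0) (h1 : ∀ x, f x ≤ 1) (ε : Cube n) :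
    ∑ i, sg (ε i) * fourierCoeff f {i} ≤
      3 * √(Real.negMulLog (fourierCoeff f ∅) * ∑ a, c a * ((A a).card / 2 ^ n) * κ a) := by
  classical
  choose l hl1 hl2 hl3 using fun a => tilt (hA a) (hκ a) ε
  have key : ∀ g : Cube n → ℝ, ∑ x, f x * g x = ∑ a, c a * ∑ x ∈ A a, g x := by
    intro g
    simp only [hf, sum_mul]
    rw [sum_comm]
    refine sum_congr rfl fun a _ => ?_
    simp only [ite_mul, zero_mul]
    rw [sum_ite_mem, univ_inter, mul_sum]
  set ν : ι → ℝ := fun a => c a * ((A a).card / 2 ^ n) with hν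
  have hν0 : ∀ a, 0 ≤ ν a := fun a => mul_nonneg (hc a) (by positivity)
  have hm : fourierCoeff f ∅ = ∑ a, ν a := by
    unfold P047.fourierCoeff
    rw [key, sum_div]
    refine sum_congr rfl fun a _ => ?_
    simp only [prod_empty, sum_const, nsmul_eq_mul, mul_one, hν]
    ring
  have hL : ∑ i, sg (ε i) * fourierCoeff f {i} = ∑ a, ν a * l a := by
    have e1 : ∑ i, sg (ε i) * fourierCoeff f {i} =
        (∑ x, f x * ∑ i, sg (ε i) * sg (x i)) / 2 ^ n := by
      unfold P047.fourierCoeff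
      simp only [prod_singleton, mul_sum, sum_div]
      rw [sum_comm]
      exact sum_congr rfl fun x _ => sum_congr rfl fun i _ => by simp only [sg]; ring
    rw [e1, key, sum_div]
    refine sum_congr rfl fun a _ => ?_
    rw [hl1, hν]
    ring
  have hE : ∀ t : ℝ, 0 ≤ t → t ≤ 1 / 2 → ∀ v : ℝ, Real.exp v *
      ((∑ a, ν a) * (1 - v) + (t * ∑ a, ν a * l a - 2 * t ^ 2 * ∑ a, ν a * κ a)) ≤ 1 := by
    intro t ht0 ht v
    have hτ : ∀ i, |t * sg (ε i)| ≤ 1 := fun i => by
      rw [abs_mul, abs_sg, mul_one, abs_of_nonneg ht0]; linarith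
    calc _ = ∑ a, c a * (((A a).card / 2 ^ n) *
          (Real.exp v * (1 + (t * l a - 2 * t ^ 2 * κ a) - v))) := by
          rw [sum_mul, mul_sum, mul_sum, ← sum_sub_distrib, ← sum_add_distrib, mul_sum]
          exact sum_congr rfl fun a _ => by rw [hν]; ring
      _ ≤ ∑ a, c a * ∑ x ∈ A a, ∏ i, w (t * sg (ε i)) (x i) :=
          sum_le_sum fun a _ => mul_le_mul_of_nonneg_left (hl3 a t ht0 ht v) (hc a)
      _ = ∑ x, f x * ∏ i, w (t * sg (ε i)) (x i) := (key _).symm
      _ ≤ ∑ x : Cube n, ∏ i, w (t * sg (ε i)) (x i) := by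
          refine sum_le_sum fun x _ => ?_
          exact mul_le_of_le_one_left (prod_nonneg fun i _ => w_nonneg (hτ i) _) (h1 x)
      _ = 1 := by
          rw [sum_prod_fun (fun i c => w (t * sg (ε i)) c)]
          simp only [sum_w, prod_const_one]
  rw [hm, hL]
  have hm0 : 0 ≤ ∑ a, ν a := sum_nonneg fun a _ => hν0 a
  have hm1 : ∑ a, ν a ≤ 1 := by simpa using hE 0 le_rfl (by norm_num) 0
  refine optim (Real.negMulLog_nonneg hm0 hm1)
    (sum_nonneg fun a _ => mul_nonneg (hν0 a) (Nat.cast_nonneg _))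
    (sum_le_sum fun a _ => mul_le_mul_of_nonneg_left ((le_abs_self _).trans (hl2 a)) (hν0 a))
    fun t ht0 ht => ?_
  rcases hm0.eq_or_lt with h0 | h0
  · have hz : ∀ a, ν a = 0 := fun a =>
      (sum_eq_zero_iff_of_nonneg fun a _ => hν0 a).1 h0.symm a (mem_univ a)
    have hz' : ∀ a, c a * (((A a).card : ℝ) / 2 ^ n) = 0 := hz
    simp only [hz, hz', zero_mul, sum_const_zero, mul_zero, Real.negMulLog_zero, add_zero, le_refl]
  · have h2 := hE t ht0 ht (-Real.log (∑ a, ν a))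
    rw [Real.exp_neg, Real.exp_log h0, inv_mul_le_iff₀ h0] at h2
    unfold Real.negMulLog
    linarith

theorem res_mul (β : Fin n → Bool) (σ : ℤˣ) (x y z : Cube n) :
    res β σ (x * y * z) = res β σ x * res β σ y * res β σ z := by
  funext i
  simp only [res, Pi.mul_apply]
  split_ifs
  · rw [Int.units_mul_self, one_mul]
  · rfl

theorem tern_res {A : Finset (Cube n)} (hA : Tern A) (β : Fin n → Bool) (σ : ℤˣ) :
    Tern (univ.filter fun x => res β σ x ∈ A) := fun x hx y hy z hz =>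
  mem_filter.2 ⟨mem_univ _, res_mul β σ x y z ▸
    hA _ (mem_filter.1 hx).2 _ (mem_filter.1 hy).2 _ (mem_filter.1 hz).2⟩

/-- A restriction does not decrease the density of an affine subspace, unless it empties it. -/
theorem card_res {A : Finset (Cube n)} (hA : Tern A) (β : Fin n → Bool) (σ : ℤˣ)
    (hne : (univ.filter fun x => res β σ x ∈ A).Nonempty) :
    A.card ≤ (univ.filter fun x => res β σ x ∈ A).card := by
  classical
  obtain ⟨b, hb⟩ := hne
  have ha := (mem_filter.1 hb).2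
  have hex : ∀ k : Cube n, ∃ y : Cube n, ∀ x ∈ A, res (fun i => !β i) 1 x = k →
      y ∈ A ∧ res (fun i => !β i) 1 y = k := by
    intro k
    by_cases h : ∃ y ∈ A, res (fun i => !β i) 1 y = k
    · obtain ⟨y, hy, hk⟩ := h
      exact ⟨y, fun _ _ _ => ⟨hy, hk⟩⟩
    · exact ⟨1, fun x hx hk => absurd ⟨x, hx, hk⟩ h⟩
  choose rep hrep using hex
  refine card_le_card_of_injOn (fun x i => if β i then x i else
    (x * rep (res (fun i => !β i) 1 x) * res β σ b) i) (fun x hx => ?_) fun x hx y hy hxy => ?_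
  · obtain ⟨h1, h2⟩ := hrep _ x hx rfl
    refine mem_coe.2 (mem_filter.2 ⟨mem_univ _, ?_⟩)
    convert hA x hx _ h1 _ ha using 1
    funext i
    have h3 := congrFun h2 i
    simp only [res, Pi.mul_apply] at h3 ⊢
    by_cases hi : β i = true
    · simp only [hi, Bool.not_true, Bool.false_eq_true, if_false, if_true] at h3 ⊢
      rw [h3, Int.units_mul_self, one_mul]
    · simp only [hi, Bool.false_eq_true, if_false]
  · have hk : res (fun i => !β i) 1 x = res (fun i => !β i) 1 y := by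
      funext i
      have h3 := congrFun hxy i
      by_cases hi : β i = true
      · simpa [res, hi] using h3
      · simp [res, hi]
    funext i
    have h3 := congrFun hxy i
    by_cases hi : β i = true
    · simpa [hi] using h3
    · simp only [hi, Bool.false_eq_true, if_false, Pi.mul_apply, hk] at h3
      exact mul_right_cancel (mul_right_cancel h3)

/-- Nonnegative combinations of affine subspaces of codimension at most `k` and biased signs. -/
theorem cone_diff {ι : Type} [Fintype ι] {c : ι → ℝ} (hc : ∀ a, 0 ≤ c a)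
    {A : ι → Finset (Cube n)} (hA : ∀ a, Tern (A a)) {k : ℕ}
    (hκ : ∀ a, (A a).Nonempty → 2 ^ n ≤ (A a).card * 2 ^ k) {f : Cube n → ℝ}
    (hf : ∀ x, f x = ∑ a, if x ∈ A a then c a else 0) (h1 : ∀ x, f x ≤ 1) {t : ℝ} (h0 : 0 < t)
    (ht : t < 1) : Eb t f - Eb (-t) f ≤ 3 * t * √k / (1 - t) := by
  classical
  have h := diff_le (f := f) (K := 3 / 2 * √k) (by positivity) (fun β σ => ?_) h0 ht
  · refine h.trans (le_of_eq ?_)
    ring
  have hf' : ∀ x, f (res β σ x) =
      ∑ a, if x ∈ univ.filter (fun x => res β σ x ∈ A a) then c a else 0 := fun x => by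
    simp only [hf, mem_filter, mem_univ, true_and]
  have h2 := cone_bound hc (fun a => tern_res (hA a) β σ) (κ := fun _ => k) (fun a hne => by
    have h3 := card_res (hA a) β σ hne
    obtain ⟨b, hb⟩ := hne
    exact (hκ a ⟨_, (mem_filter.1 hb).2⟩).trans (Nat.mul_le_mul_right _ h3)) hf'
    (fun x => h1 _) 1
  simp only [Pi.one_apply, sg_one, one_mul] at h2
  refine h2.trans ?_
  set m := fourierCoeff (fun x => f (res β σ x)) ∅ with hm
  have hm1 : m = ∑ a, c a * (((univ.filter fun x => res β σ x ∈ A a).card : ℝ) / 2 ^ n) := by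
    rw [hm]
    unfold P047.fourierCoeff
    simp only [prod_empty, mul_one, hf']
    rw [sum_comm, sum_div]
    refine sum_congr rfl fun a _ => ?_
    rw [sum_ite_mem, univ_inter, sum_const, nsmul_eq_mul]
    ring
  have hm0 : 0 ≤ m := hm1 ▸ sum_nonneg fun a _ => mul_nonneg (hc a) (by positivity)
  rw [← sum_mul, ← hm1]
  have h4 : Real.negMulLog m * m ≤ (1 / 2) ^ 2 := by
    have h5 := Real.negMulLog_le_one_sub_self hm0
    nlinarith [mul_le_mul_of_nonneg_right h5 hm0, sq_nonneg (m - 1 / 2)]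
  have h6 : √(Real.negMulLog m * (m * k)) ≤ √((1 / 2) ^ 2 * k) := by
    refine Real.sqrt_le_sqrt ?_
    rw [← mul_assoc]
    exact mul_le_mul_of_nonneg_right h4 (Nat.cast_nonneg k)
  rw [Real.sqrt_mul (sq_nonneg (1 / 2 : ℝ)), Real.sqrt_sq (by norm_num)] at h6
  linarith

end

end Vale.Agent.N047C
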