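import Mathlib.Algebra.MvPolynomial.Degrees
import Mathlib.Algebra.Field.ZMod
import Mathlib.Data.Real.Basic
import Mathlib.Data.Set.Card
import Mathlib.LinearAlgebra.AffineSpace.AffineSubspace.Defs
import Mathlib.LinearAlgebra.Dimension.Finrank

/-! Boolean functions as multilinear polynomials; affine subspaces of the cube. -/

open MvPolynomial

namespace Vale.Agent.N047C

variable {n : ℕ}

/-- `P` has degree at most one in each variable. -/
def Multilin (P : MvPolynomial (Fin n) ℝ) : Prop := ∀ i, P.degreeOf i ≤ 1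

/-- `P` is multilinear and takes only the values `1`, `-1` on `{-1,1}^n`. -/
def Boolean (P : MvPolynomial (Fin n) ℝ) : Prop :=
  Multilin P ∧ ∀ x : Fin n → ℝ, (∀ i, x i = 1 ∨ x i = -1) → eval x P = 1 ∨ eval x P = -1

/-- The coefficient of the monomial `x_i` in `P`. -/
noncomputable def lin (P : MvPolynomial (Fin n) ℝ) (i : Fin n) : ℝ := coeff (Finsupp.single i 1) P

/-- The point `((-1)^(x_1), ..., (-1)^(x_n))` of `{-1,1}^n`. -/
def pt (x : Fin n → ZMod 2) (i : Fin n) : ℝ := if x i = 0 then 1 else -1

/-- The fraction of the points of `F_2^n` that lie in `A`. -/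
noncomputable def dens (A : AffineSubspace (ZMod 2) (Fin n → ZMod 2)) : ℝ :=
  (A : Set (Fin n → ZMod 2)).ncard / 2 ^ n

/-- The codimension of `A` in `F_2^n`. -/
noncomputable def codim (A : AffineSubspace (ZMod 2) (Fin n → ZMod 2)) : ℕ :=
  n - Module.finrank (ZMod 2) A.direction

/-- `P` is multilinear, at most `1` on the cube, and there equal to the combination of the
indicators of the affine subspaces `A a` with nonnegative coefficients `c a`. -/
def Conic {m : ℕ} (P : MvPolynomial (Fin n) ℝ) (c : Fin m → ℝ)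
    (A : Fin m → AffineSubspace (ZMod 2) (Fin n → ZMod 2)) : Prop :=
  Multilin P ∧ (∀ a, 0 ≤ c a) ∧ ∀ x, eval (pt x) P ≤ 1 ∧
    eval (pt x) P = ∑ a, (A a : Set (Fin n → ZMod 2)).indicator (fun _ => c a) x

end Vale.Agent.N047C
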