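import Vale.Agent.N047C.Poly

/-! The clauses of the hand-in, for multilinear polynomials. -/

open Finset MvPolynomial Filter
open scoped Topology

namespace Vale.Agent.N047C

open Vale.Agent.P047 Vale.Agent.P047.H594

variable {n : ℕ}

theorem existsUnique_pol (f : (Fin n → ZMod 2) → ℝ) :
    ∃! P : MvPolynomial (Fin n) ℝ, Multilin P ∧ ∀ x, eval (pt x) P = f x := by
  refine ⟨pol fun y => f ((cu n).symm y), ⟨multilin_pol _, fun x => ?_⟩, fun Q hQ => ?_⟩
  · rw [← fn_cu, fn_pol, Equiv.symm_apply_apply]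
  · rw [← hQ.1.pol_fn]
    congr 1
    funext y
    rw [← hQ.2, ← fn_cu, Equiv.apply_symm_apply]

theorem Multilin.coeff_eq {P : MvPolynomial (Fin n) ℝ} (h : Multilin P) (S : Finset (Fin n)) :
    coeff (∑ i ∈ S, Finsupp.single i 1) P =
      (∑ x, eval (pt x) P * ∏ i ∈ S, pt x i) / 2 ^ n := by
  have h1 := h.fourier S
  unfold ind P047.fourierCoeff at h1
  rw [← h1, ← (cu n).sum_comp]
  congr 1
  refine sum_congr rfl fun x _ => ?_
  rw [fn_cu]
  congr 1
  exact prod_congr rfl fun i _ => sg_cu x i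

theorem Multilin.totalDegree_eq {P : MvPolynomial (Fin n) ℝ} (h : Multilin P) :
    P.totalDegree = (univ.filter fun S : Finset (Fin n) =>
      coeff (∑ i ∈ S, Finsupp.single i 1) P ≠ 0).sup card := by
  rw [← h.degree_fn, degree]
  simp only [h.fourier, ind]

theorem Multilin.eval_const {P : MvPolynomial (Fin n) ℝ} (h : Multilin P) (t : ℝ) :
    eval (fun _ => t) P = ∑ x, (∏ i, (1 + t * pt x i) / 2) * eval (pt x) P := by
  rw [← h.Eb_fn, Eb, ← (cu n).sum_comp]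
  refine sum_congr rfl fun x _ => ?_
  rw [fn_cu]
  congr 1
  exact prod_congr rfl fun i _ => by rw [w, sg_cu]

theorem degree_pol (f : Cube n → ℝ) : (pol f).totalDegree = degree f := by
  rw [← (multilin_pol f).degree_fn, fn_pol]

theorem sum_lin_pol (f : Cube n → ℝ) : ∑ i, lin (pol f) i = linearSum f := by
  rw [(multilin_pol f).sum_lin, fn_pol]

theorem eval_pol (f : Cube n → ℝ) (t : ℝ) : eval (fun _ => t) (pol f) = Eb t f := by
  rw [← (multilin_pol f).Eb_fn, fn_pol]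

theorem not_sqrt : ¬ ∀ n, 1 ≤ n → ∀ P : MvPolynomial (Fin n) ℝ, Boolean P →
    ∑ i, lin P i ≤ √P.totalDegree := fun h => by
  obtain ⟨-, -, n, hn, f, hf, h3⟩ := P047.main
  have h1 := h n hn _ (boolean_pol hf)
  rw [degree_pol, sum_lin_pol] at h1
  exact absurd h1 (not_le.2 h3)

theorem not_const : ¬ ∃ C : ℝ, ∀ n, 1 ≤ n → ∀ P : MvPolynomial (Fin n) ℝ, Boolean P →
    ∑ i, lin P i ≤ C * √P.totalDegree := fun ⟨C, h⟩ => by
  refine P047.main.2.1 ⟨C, fun n hn f hf => ?_⟩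
  have h1 := h n hn _ (boolean_pol hf)
  rwa [degree_pol, sum_lin_pol] at h1

theorem sums_eq (d : ℕ) : {s | ∃ n, 1 ≤ n ∧ ∃ P : MvPolynomial (Fin n) ℝ,
    Boolean P ∧ P.totalDegree ≤ d ∧ ∑ i, lin P i = s} = linearSums d := by
  ext s
  constructor
  · rintro ⟨n, hn, P, h1, h2, h3⟩
    exact ⟨n, hn, fn P, h1.isBoolean, h1.1.degree_fn.trans_le h2, h1.1.sum_lin.symm.trans h3⟩
  · rintro ⟨n, hn, f, h1, h2, h3⟩
    exact ⟨n, hn, pol f, boolean_pol h1, (degree_pol f).trans_le h2, (sum_lin_pol f).trans h3⟩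

theorem degs_eq (η t : ℝ) : {d | ∃ (n : ℕ) (P : MvPolynomial (Fin n) ℝ), Boolean P ∧
    P.totalDegree ≤ d ∧ η ≤ eval (fun _ => t) P ∧ eval (fun _ => -t) P ≤ -η} = degs η t := by
  ext d
  constructor
  · rintro ⟨n, P, h1, h2, h3, h4⟩
    exact ⟨n, fn P, h1.isBoolean, h1.1.degree_fn.trans_le h2, h3.trans_eq (h1.1.Eb_fn _).symm,
      (h1.1.Eb_fn _).trans_le h4⟩
  · rintro ⟨n, f, h1, h2, h3, h4⟩
    exact ⟨n, pol f, boolean_pol h1, (degree_pol f).trans_le h2, h3.trans_eq (eval_pol f _).symm,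
      (eval_pol f _).trans_le h4⟩

theorem coin_pol {d : ℕ} {P : MvPolynomial (Fin n) ℝ} {t : ℝ} (hd : 1 ≤ d) (h : Boolean P)
    (h2 : P.totalDegree ≤ d) (h0 : 0 < t) (h1 : t < 1) :
    eval (fun _ => t) P - eval (fun _ => -t) P ≤ 2 * t * maxLinearSum d / (1 - t) := by
  rw [← h.1.Eb_fn, ← h.1.Eb_fn]
  exact coin_lower hd h.isBoolean (h.1.degree_fn.trans_le h2) h0 h1

variable {m : ℕ} {P : MvPolynomial (Fin n) ℝ}

theorem Conic.bound {c : Fin m → ℝ} {A : Fin m → AffineSubspace (ZMod 2) (Fin n → ZMod 2)}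
    (h : Conic P c A) : ∑ i, |lin P i| ≤
      3 * √(Real.negMulLog (coeff 0 P) * ∑ a, c a * dens (A a) * codim (A a)) := by
  obtain ⟨ε, hε⟩ := h.1.sum_abs_lin
  simp only [hε, h.1.coeff_zero_eq, dens_eq]
  exact cone_bound h.2.1 (fun a => tern_af (A a)) (fun a => le_card_af (A a) le_rfl)
    (fun y => (h.fn_eq y).2) (fun y => (h.fn_eq y).1) ε

theorem Conic.diff {c : Fin m → ℝ} {A : Fin m → AffineSubspace (ZMod 2) (Fin n → ZMod 2)}
    (h : Conic P c A) {k : ℕ} (hk : ∀ a, codim (A a) ≤ k) {t : ℝ} (h0 : 0 < t) (h1 : t < 1) :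
    eval (fun _ => t) P - eval (fun _ => -t) P ≤ 3 * t * √k / (1 - t) := by
  rw [← h.1.Eb_fn, ← h.1.Eb_fn]
  exact cone_diff h.2.1 (fun a => tern_af (A a)) (fun a => le_card_af (A a) (hk a))
    (fun y => (h.fn_eq y).2) (fun y => (h.fn_eq y).1) h0 h1

theorem affine_part (h : Multilin P) {v : Fin m → ℝ} (hv : ∀ a, |v a| ≤ 1)
    {A : Fin m → AffineSubspace (ZMod 2) (Fin n → ZMod 2)} (hp : ∀ x, ∃! a, x ∈ A a)
    (hf : ∀ a, ∀ x ∈ A a, eval (pt x) P = v a) :
    ∑ i, |lin P i| ≤ √(2 * ∑ a, dens (A a) * codim (A a)) := by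
  obtain ⟨ε, hε⟩ := h.sum_abs_lin
  choose J h1 h2 using fun a => exists_loose (tern_af (A a)) (le_card_af (A a) le_rfl)
  have h3 := part_bound (f := fn P) (fun a => tern_af (A a))
    (fun y => by simpa only [mem_af] using hp ((cu n).symm y)) h1 h2 hv
    (fun a y hy => by rw [← hf a _ (mem_af.1 hy), ← fn_cu, Equiv.apply_symm_apply]) ε
  rw [hε, mul_sum]
  refine h3.trans_eq ?_
  congr 1
  exact sum_congr rfl fun a _ => by rw [dens_eq]; ring

theorem cube_part (h : Multilin P) {v : Fin m → ℝ} (hv : ∀ a, |v a| ≤ 1)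
    {S : Fin m → Finset (Fin n)} {z : Fin m → Fin n → ZMod 2}
    (hp : ∀ x : Fin n → ZMod 2, ∃! a, ∀ i ∈ S a, x i = z a i)
    (hf : ∀ a (x : Fin n → ZMod 2), (∀ i ∈ S a, x i = z a i) → eval (pt x) P = v a) :
    ∑ i, |lin P i| ≤ √(∑ a, ((S a).card : ℝ) / 2 ^ (S a).card) := by
  obtain ⟨ε, hε⟩ := h.sum_abs_lin
  have key : ∀ a y, y ∈ sub (S a) (cu n (z a)) ↔ ∀ i ∈ S a, (cu n).symm y i = z a i := by
    intro a y
    rw [mem_sub]
    exact forall₂_congr fun i _ => (us.symm_apply_eq (x := y i) (y := z a i)).symm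
  have h3 := part_bound (f := fn P) (κ := fun a => ((S a).card : ℝ))
    (fun a => tern_sub (S a) (cu n (z a)))
    (fun y => by simpa only [key] using hp ((cu n).symm y)) (fun a => loose_sub _ _)
    (fun a _ => by
      rw [← Nat.cast_add, card_compl_add_card, Fintype.card_fin]) hv
    (fun a y hy => by rw [← hf a _ ((key a y).1 hy), ← fn_cu, Equiv.apply_symm_apply]) ε
  rw [hε]
  refine h3.trans_eq ?_
  congr 1
  exact sum_congr rfl fun a _ => by rw [card_sub]; ring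

end Vale.Agent.N047C
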