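import Vale.Agent.N047C.Cone

/-! The square-root bound with sharp constants for partitions of the cube into affine subspaces
and into subcubes. -/

open Finset

namespace Vale.Agent.N047C

open Vale.Agent.P047 Vale.Agent.P047.H594

noncomputable section

variable {n : ℕ}

theorem sum_char_zero {A : Finset (Cube n)} (hA : Tern A) (φ : Cube n → ℤˣ)
    (hφ : ∀ x y, φ (x * y) = φ x * φ y) {x y : Cube n} (hx : x ∈ A) (hy : y ∈ A)
    (h : φ x ≠ φ y) : ∑ v ∈ A, sg (φ v) = 0 := by
  have huu : ∀ v : Cube n, v * x * y * x * y = v := fun v => by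
    funext k
    simp only [Pi.mul_apply]
    calc v k * x k * y k * x k * y k = v k * (x k * x k) * (y k * y k) := by ac_rfl
      _ = v k := by rw [Int.units_mul_self, Int.units_mul_self, mul_one, mul_one]
  have hsw : ∑ v ∈ A, sg (φ (v * x * y)) = ∑ v ∈ A, sg (φ v) :=
    Finset.sum_nbij' (fun v => v * x * y) (fun v => v * x * y) (fun v hv => hA v hv x hx y hy)
      (fun v hv => hA v hv x hx y hy) (fun v _ => huu v) (fun v _ => huu v) fun _ _ => rfl
  have h1 : ∑ v ∈ A, sg (φ (v * x * y)) = - ∑ v ∈ A, sg (φ v) := by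
    rw [← sum_neg_distrib]
    refine sum_congr rfl fun v _ => ?_
    rw [hφ, hφ, mul_assoc, mul_of_ne h, mul_neg_one, sg_neg]
  linarith

/-- the coordinates in `J` are not tied to a constant or to another coordinate on `A` -/
def Loose (A : Finset (Cube n)) (J : Finset (Fin n)) : Prop :=
  ∀ j ∈ J, (∃ x ∈ A, ∃ y ∈ A, x j ≠ y j) ∧
    ∀ i, i ≠ j → ∃ x ∈ A, ∃ y ∈ A, x i * x j ≠ y i * y j

theorem second_moment {A : Finset (Cube n)} (hA : Tern A) {J : Finset (Fin n)} (hJ : Loose A J)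
    (ε : Cube n) {l : ℝ} (hl : ∑ x ∈ A, ∑ i, sg (ε i) * sg (x i) = A.card * l) :
    A.card * (l ^ 2 + J.card) ≤ ∑ x ∈ A, (∑ i, sg (ε i) * sg (x i)) ^ 2 := by
  classical
  have h1 : ∀ j ∈ J, ∑ x ∈ A, sg (x j) = 0 := fun j hj => by
    obtain ⟨x, hx, y, hy, h⟩ := (hJ j hj).1
    exact sum_char_zero hA (fun v => v j) (fun _ _ => rfl) hx hy h
  have h2 : ∀ j ∈ J, ∀ i, ∑ x ∈ A, sg (ε i) * sg (x i) * (sg (ε j) * sg (x j)) =
      if i = j then (A.card : ℝ) else 0 := fun j hj i => by
    split_ifs with hij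
    · subst hij
      rw [card_eq_sum_ones, Nat.cast_sum]
      refine sum_congr rfl fun x _ => ?_
      rw [← sg_mul, unit_sq, Nat.cast_one]
    · obtain ⟨x, hx, y, hy, h⟩ := (hJ j hj).2 i hij
      have h3 := sum_char_zero hA (fun v => v i * v j)
        (fun a b => by simp only [Pi.mul_apply]; ac_rfl) hx hy h
      have h4 : ∀ v : Cube n, sg (ε i) * sg (v i) * (sg (ε j) * sg (v j)) =
          sg (ε i) * sg (ε j) * sg (v i * v j) := fun v => by rw [sg_mul]; ring
      rw [sum_congr rfl fun v _ => h4 v, ← mul_sum, h3, mul_zero]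
  set S : Cube n → ℝ := fun x => ∑ i, sg (ε i) * sg (x i) with hS
  set T : Cube n → ℝ := fun x => ∑ j ∈ J, sg (ε j) * sg (x j) with hT
  have hT1 : ∑ x ∈ A, T x = 0 := by
    rw [hT, sum_comm]
    exact sum_eq_zero fun j hj => by rw [← mul_sum, h1 j hj, mul_zero]
  have hU : ∀ U : Finset (Fin n), J ⊆ U →
      ∑ x ∈ A, (∑ i ∈ U, sg (ε i) * sg (x i)) * T x = A.card * J.card := by
    intro U hU
    simp only [hT, sum_mul_sum]
    rw [sum_comm]
    have h5 : ∀ i ∈ U, ∑ x ∈ A, ∑ j ∈ J, sg (ε i) * sg (x i) * (sg (ε j) * sg (x j)) =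
        if i ∈ J then (A.card : ℝ) else 0 := fun i _ => by
      rw [sum_comm, sum_congr rfl fun j hj => h2 j hj i, sum_ite_eq]
    rw [sum_congr rfl h5, sum_ite_mem, inter_eq_right.2 hU, sum_const, nsmul_eq_mul, mul_comm]
  have hST : ∑ x ∈ A, S x * T x = A.card * J.card := hU univ (subset_univ _)
  have hTT : ∑ x ∈ A, T x * T x = A.card * J.card := hU J Subset.rfl
  have h6 : 0 ≤ ∑ x ∈ A, (S x - l - T x) ^ 2 := sum_nonneg fun x _ => sq_nonneg _
  have h7 : ∀ x, (S x - l - T x) ^ 2 =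
      S x ^ 2 + l ^ 2 + T x * T x - 2 * l * S x - 2 * (S x * T x) + 2 * l * T x := fun x => by ring
  simp only [h7, sum_add_distrib, sum_sub_distrib, ← mul_sum, sum_const, nsmul_eq_mul] at h6
  rw [hT1, hST, hTT, hl] at h6
  nlinarith

theorem loose_univ : Loose (univ : Finset (Cube n)) univ := by
  classical
  intro j _
  refine ⟨⟨1, mem_univ _, -1, mem_univ _, by simp only [Pi.one_apply, Pi.neg_apply]; decide⟩,
    fun i hij => ⟨1, mem_univ _, Function.update 1 j (-1), mem_univ _, ?_⟩⟩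
  rw [Function.update_of_ne hij, Function.update_self]
  simp only [Pi.one_apply]
  decide

theorem sum_sq_cube (ε : Cube n) :
    ∑ x : Cube n, (∑ i, sg (ε i) * sg (x i)) ^ 2 = 2 ^ n * n := by
  classical
  simp only [sq, sum_mul_sum]
  rw [sum_comm]
  have h : ∀ i : Fin n, ∑ x : Cube n, ∑ j, sg (ε i) * sg (x i) * (sg (ε j) * sg (x j)) = 2 ^ n := by
    intro i
    rw [sum_comm]
    have h1 : ∀ j : Fin n, ∑ x : Cube n, sg (ε i) * sg (x i) * (sg (ε j) * sg (x j)) =
        if i = j then (2 : ℝ) ^ n else 0 := fun j => by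
      have h2 := sum_chi_cube ({i} : Finset (Fin n)) {j}
      simp only [chi, prod_singleton, singleton_inj] at h2
      have h3 : ∀ x : Cube n, sg (ε i) * sg (x i) * (sg (ε j) * sg (x j)) =
          sg (ε i) * sg (ε j) * (sg (x i) * sg (x j)) := fun x => by ring
      rw [sum_congr rfl fun x _ => h3 x, ← mul_sum, h2]
      split_ifs with hij
      · subst hij
        rw [unit_sq, one_mul]
      · rw [mul_zero]
    rw [sum_congr rfl fun j _ => h1 j, sum_ite_eq, if_pos (mem_univ _)]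
  rw [sum_congr rfl fun i _ => h i, sum_const, card_univ, Fintype.card_fin, nsmul_eq_mul, mul_comm]

/-- The bound for partitions. -/
theorem part_bound {ι : Type} [Fintype ι] {A : ι → Finset (Cube n)} (hA : ∀ a, Tern (A a))
    (hp : ∀ x, ∃! a, x ∈ A a) {J : ι → Finset (Fin n)} (hJ : ∀ a, Loose (A a) (J a))
    {κ : ι → ℝ} (hκ : ∀ a, (A a).Nonempty → (n : ℝ) ≤ (J a).card + κ a) {v : ι → ℝ}
    (hv : ∀ a, |v a| ≤ 1) {f : Cube n → ℝ} (hf : ∀ a, ∀ x ∈ A a, f x = v a) (ε : Cube n) :
    ∑ i, sg (ε i) * P047.fourierCoeff f {i} ≤ √(∑ a, ((A a).card / 2 ^ n) * κ a) := by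
  classical
  have key : ∀ g : Cube n → ℝ, ∑ x, g x = ∑ a, ∑ x ∈ A a, g x := by
    intro g
    have h1 : ∀ a, ∑ x ∈ A a, g x = ∑ x, if x ∈ A a then g x else 0 := fun a => by
      rw [sum_ite_mem, univ_inter]
    simp only [h1]
    rw [sum_comm]
    refine sum_congr rfl fun x _ => ?_
    obtain ⟨a, ha, hu⟩ := hp x
    rw [sum_eq_single a (fun b _ hb => if_neg fun h => hb (hu b h)) (by simp), if_pos ha]
  set S : Cube n → ℝ := fun x => ∑ i, sg (ε i) * sg (x i) with hS
  set l : ι → ℝ := fun a => (∑ x ∈ A a, S x) / (A a).card with hl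
  have hl1 : ∀ a, ∑ x ∈ A a, S x = (A a).card * l a := fun a => by
    rcases (A a).eq_empty_or_nonempty with h | h
    · simp [h]
    · have : ((A a).card : ℝ) ≠ 0 := by exact_mod_cast h.card_pos.ne'
      rw [hl]
      field_simp
  set p : ι → ℝ := fun a => ((A a).card : ℝ) / 2 ^ n with hp'
  have hp0 : ∀ a, 0 ≤ p a := fun a => div_nonneg (Nat.cast_nonneg _) (by positivity)
  have hp1 : ∑ a, p a = 1 := by
    have h1 := key fun _ => 1
    simp only [sum_const, nsmul_eq_mul, mul_one, card_univ, card_cube_fun, Fintype.card_fin] at h1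
    rw [hp', ← sum_div, ← h1]
    exact div_self (by positivity)
  have hL : ∑ i, sg (ε i) * P047.fourierCoeff f {i} = ∑ a, p a * (v a * l a) := by
    have e1 : ∑ i, sg (ε i) * P047.fourierCoeff f {i} = (∑ x, f x * S x) / 2 ^ n := by
      unfold P047.fourierCoeff
      simp only [hS, prod_singleton, mul_sum, sum_div]
      rw [sum_comm]
      exact sum_congr rfl fun x _ => sum_congr rfl fun i _ => by simp only [sg]; ring
    rw [e1, key, sum_div]
    refine sum_congr rfl fun a _ => ?_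
    rw [sum_congr rfl fun x hx => by rw [hf a x hx], ← mul_sum, hl1, hp']
    ring
  have h2 : ∑ a, p a * l a ^ 2 ≤ ∑ a, p a * κ a := by
    have h3 := sum_sq_cube ε
    rw [key] at h3
    have h4 : ∑ a, p a * (l a ^ 2 + (J a).card) ≤ n := by
      calc _ = (∑ a, ((A a).card : ℝ) * (l a ^ 2 + (J a).card)) / 2 ^ n := by
            rw [sum_div]
            exact sum_congr rfl fun a _ => by rw [hp']; ring
        _ ≤ (2 ^ n * n) / 2 ^ n := by
            rw [← h3]
            exact div_le_div_of_nonneg_right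
              (sum_le_sum fun a _ => second_moment (hA a) (hJ a) ε (hl1 a)) (by positivity)
        _ = n := by field_simp
    have h5 : (n : ℝ) ≤ ∑ a, p a * ((J a).card + κ a) := by
      calc (n : ℝ) = ∑ a, p a * n := by rw [← sum_mul, hp1, one_mul]
        _ ≤ _ := by
          refine sum_le_sum fun a _ => ?_
          rcases (A a).eq_empty_or_nonempty with h | h
          · simp [hp', h]
          · exact mul_le_mul_of_nonneg_left (hκ a h) (hp0 a)
    simp only [mul_add, sum_add_distrib] at h4 h5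
    linarith
  rw [hL]
  refine Real.le_sqrt_of_sq_le (le_trans ?_ h2)
  have h6 := sum_mul_sq_le_sq_mul_sq univ (fun a => √(p a) * v a) (fun a => √(p a) * l a)
  have h7 : ∀ a, √(p a) * v a * (√(p a) * l a) = p a * (v a * l a) := fun a => by
    have := Real.mul_self_sqrt (hp0 a)
    linear_combination (v a * l a) * this
  simp only [h7, mul_pow, Real.sq_sqrt (hp0 _)] at h6
  refine h6.trans
    (mul_le_of_le_one_left (sum_nonneg fun a _ => mul_nonneg (hp0 a) (sq_nonneg _)) ?_)
  rw [← hp1]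
  refine sum_le_sum fun a _ => mul_le_of_le_one_right (hp0 a) ?_
  rw [← sq_abs]
  exact pow_le_one₀ (abs_nonneg _) (hv a)

/-- All but twice the codimension many coordinates are loose. -/
theorem exists_loose {A : Finset (Cube n)} (hA : Tern A) {κ : ℕ}
    (hκ : A.Nonempty → 2 ^ n ≤ A.card * 2 ^ κ) :
    ∃ J, Loose A J ∧ (A.Nonempty → (n : ℝ) ≤ J.card + 2 * κ) := by
  classical
  rcases A.eq_empty_or_nonempty with rfl | hne
  · exact ⟨∅, fun j hj => absurd hj (notMem_empty j), fun h => absurd h not_nonempty_empty⟩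
  obtain ⟨J, h⟩ := exists_info hA hne
  have h2 : n ≤ J.card + κ := by
    have h1 : ((2 : ℕ) ^ n : ℝ) ≤ A.card * 2 ^ κ := by exact_mod_cast hκ hne
    rw [h.card_eq, ← pow_add] at h1
    have : (2 : ℝ) ^ n ≤ 2 ^ (J.card + κ) := by exact_mod_cast h1
    exact (pow_le_pow_iff_right₀ one_lt_two).1 this
  have hJ : Jᶜ.card + J.card = n := by
    rw [card_compl, Fintype.card_fin]
    have := card_le_univ J
    rw [Fintype.card_fin] at this
    omega
  have hfree : ∀ i ∈ J, ∀ j ∈ J, i ≠ j → ∃ x ∈ A, ∃ y ∈ A, x i * x j ≠ y i * y j := by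
    intro i hi j hj hij
    obtain ⟨x, hx, h1⟩ := h.surj 1
    obtain ⟨y, hy, h2⟩ := h.surj (Function.update 1 j (-1))
    refine ⟨x, hx, y, hy, ?_⟩
    rw [h1 i hi, h1 j hj, h2 i hi, h2 j hj, Function.update_of_ne hij, Function.update_self]
    simp only [Pi.one_apply]
    decide
  set G : Fin n → Prop := fun j => ∀ i, i ≠ j → ∃ x ∈ A, ∃ y ∈ A, x i * x j ≠ y i * y j with hG
  refine ⟨J.filter G, fun j hj => ⟨?_, (mem_filter.1 hj).2⟩, fun _ => ?_⟩
  · obtain ⟨x, hx, h1⟩ := h.surj 1
    obtain ⟨y, hy, h2⟩ := h.surj (-1)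
    refine ⟨x, hx, y, hy, ?_⟩
    rw [h1 j (mem_filter.1 hj).1, h2 j (mem_filter.1 hj).1]
    simp only [Pi.one_apply, Pi.neg_apply]
    decide
  have hex : ∀ j : Fin n, ∃ i, ¬ G j →
      i ≠ j ∧ ∀ x ∈ A, ∀ y ∈ A, x i * x j = y i * y j := fun j => by
    by_cases hj : G j
    · exact ⟨j, fun h => absurd hj h⟩
    · have hj' := hj
      simp only [hG] at hj'
      push Not at hj'
      obtain ⟨i, hi⟩ := hj'
      exact ⟨i, fun _ => hi⟩
  choose g hg using hex
  have h3 : (J.filter fun j => ¬ G j).card ≤ Jᶜ.card := by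
    refine card_le_card_of_injOn g (fun j hj => ?_) fun j hj k hk hjk => ?_
    · obtain ⟨hj1, hj2⟩ := mem_filter.1 (mem_coe.1 hj)
      refine mem_coe.2 (mem_compl.2 fun hi => ?_)
      obtain ⟨x, hx, y, hy, hxy⟩ := hfree _ hi j hj1 (hg j hj2).1
      exact hxy ((hg j hj2).2 x hx y hy)
    · obtain ⟨hj1, hj2⟩ := mem_filter.1 (mem_coe.1 hj)
      obtain ⟨hk1, hk2⟩ := mem_filter.1 (mem_coe.1 hk)
      by_contra hne'
      obtain ⟨x, hx, y, hy, hxy⟩ := hfree j hj1 k hk1 hne'
      have e1 := (hg j hj2).2 x hx y hy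
      have e2 := (hg k hk2).2 x hx y hy
      rw [← hjk] at e2
      apply hxy
      calc x j * x k = (x (g j) * x j) * (x (g j) * x k) := by
            rw [mul_mul_mul_comm, Int.units_mul_self, one_mul]
        _ = (y (g j) * y j) * (y (g j) * y k) := by rw [e1, e2]
        _ = y j * y k := by rw [mul_mul_mul_comm, Int.units_mul_self, one_mul]
  have h4 := card_filter_add_card_filter_not (s := J) G
  have h5 : n ≤ (J.filter G).card + 2 * κ := by omega
  exact_mod_cast h5

/-- the subcube on which the coordinates in `S` agree with `z` -/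
def sub (S : Finset (Fin n)) (z : Cube n) : Finset (Cube n) :=
  univ.filter fun x => ∀ i ∈ S, x i = z i

theorem mem_sub {S : Finset (Fin n)} {z x : Cube n} : x ∈ sub S z ↔ ∀ i ∈ S, x i = z i := by
  simp [sub]

theorem tern_sub (S : Finset (Fin n)) (z : Cube n) : Tern (sub S z) := by
  intro a ha b hb c hc
  rw [mem_sub] at ha hb hc ⊢
  intro i hi
  simp only [Pi.mul_apply]
  rw [ha i hi, hb i hi, hc i hi, Int.units_mul_self, one_mul]

theorem loose_sub (S : Finset (Fin n)) (z : Cube n) : Loose (sub S z) Sᶜ := by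
  classical
  intro j hj
  have hj' : j ∉ S := mem_compl.1 hj
  have h1 : z ∈ sub S z := mem_sub.2 fun _ _ => rfl
  have h2 : Function.update z j (-z j) ∈ sub S z := mem_sub.2 fun i hi =>
    Function.update_of_ne (fun e : i = j => hj' (e ▸ hi)) _ _
  have h3 : z j ≠ -z j := ne_iff_neg.2 (neg_neg _).symm
  refine ⟨⟨z, h1, _, h2, by rw [Function.update_self]; exact h3⟩, fun i hij => ⟨z, h1, _, h2, ?_⟩⟩
  rw [Function.update_of_ne hij, Function.update_self]
  exact fun e => h3 (mul_left_cancel e)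

theorem card_sub (S : Finset (Fin n)) (z : Cube n) :
    ((sub S z).card : ℝ) / 2 ^ n = 1 / 2 ^ S.card := by
  classical
  have h : Info (sub S z) Sᶜ := by
    refine ⟨fun y => ⟨fun i => if i ∈ S then z i else y i, mem_sub.2 fun i hi => if_pos hi,
      fun j hj => if_neg (mem_compl.1 hj)⟩, fun x hx y hy hxy => funext fun i => ?_⟩
    by_cases hi : i ∈ S
    · rw [mem_sub.1 hx i hi, mem_sub.1 hy i hi]
    · exact hxy i (mem_compl.2 hi)
  have hJ : Sᶜ.card + S.card = n := by
    rw [card_compl, Fintype.card_fin]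
    have := card_le_univ S
    rw [Fintype.card_fin] at this
    omega
  rw [h.card_eq, show (2 : ℝ) ^ n = 2 ^ Sᶜ.card * 2 ^ S.card by rw [← pow_add, hJ]]
  field_simp

end

end Vale.Agent.N047C
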