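import Vale.Agent.N047C.Defs
import Vale.Agent.N047C.Part
import Vale.Agent.N047C.Coin
import Mathlib.FieldTheory.Finiteness

/-! From functions on the cube to multilinear polynomials. -/

open Finset MvPolynomial

namespace Vale.Agent.N047C

open Vale.Agent.P047 Vale.Agent.P047.H594

noncomputable section

variable {n : ℕ}

/-- the exponent vector of the monomial of `S` -/
def ind (S : Finset (Fin n)) : Fin n →₀ ℕ := ∑ i ∈ S, Finsupp.single i 1

theorem ind_apply (S : Finset (Fin n)) (i : Fin n) : ind S i = if i ∈ S then 1 else 0 := by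
  unfold ind
  rw [Finsupp.finsetSum_apply]
  simp only [Finsupp.single_apply]
  rw [sum_ite_eq']

theorem support_ind (S : Finset (Fin n)) : (ind S).support = S := by
  ext i
  rw [Finsupp.mem_support_iff, ind_apply]
  split_ifs with h <;> simp [h]

theorem ind_inj {S T : Finset (Fin n)} (h : ind S = ind T) : S = T := by
  rw [← support_ind S, h, support_ind]

theorem sum_ind (S : Finset (Fin n)) : ((ind S).sum fun _ e => e) = S.card := by
  unfold Finsupp.sum
  rw [support_ind, card_eq_sum_ones]
  exact sum_congr rfl fun i hi => by rw [ind_apply, if_pos hi]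

theorem eq_ind {m : Fin n →₀ ℕ} (h : ∀ i, m i ≤ 1) : m = ind m.support := by
  ext i
  rw [ind_apply]
  have := h i
  split_ifs with hi
  · have := Finsupp.mem_support_iff.1 hi
    omega
  · exact Finsupp.notMem_support_iff.1 hi

theorem eval_ind (x : Fin n → ℝ) (S : Finset (Fin n)) (c : ℝ) :
    eval x (monomial (ind S) c) = c * ∏ i ∈ S, x i := by
  rw [eval_monomial]
  unfold Finsupp.prod
  rw [support_ind]
  congr 1
  exact prod_congr rfl fun i hi => by simp only [ind_apply, if_pos hi, pow_one]

theorem coeff_sum_ind (c : Finset (Fin n) → ℝ) (m : Fin n →₀ ℕ) :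
    coeff m (∑ S, monomial (ind S) (c S)) = if ind m.support = m then c m.support else 0 := by
  rw [coeff_sum, sum_eq_single m.support, coeff_monomial]
  · intro S _ hS
    rw [coeff_monomial, if_neg]
    intro h
    exact hS (by rw [← h, support_ind])
  · simp

theorem Multilin.le_one {P : MvPolynomial (Fin n) ℝ} (h : Multilin P) {m : Fin n →₀ ℕ}
    (hm : m ∈ P.support) (i : Fin n) : m i ≤ 1 := degreeOf_le_iff.1 (h i) m hm

theorem Multilin.eq_sum {P : MvPolynomial (Fin n) ℝ} (h : Multilin P) :
    P = ∑ S, monomial (ind S) (coeff (ind S) P) := by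
  ext m
  rw [coeff_sum_ind]
  split_ifs with hm
  · rw [hm]
  · by_contra h0
    exact hm (eq_ind (h.le_one (mem_support_iff.2 h0))).symm

theorem Multilin.eval_eq {P : MvPolynomial (Fin n) ℝ} (h : Multilin P) (x : Fin n → ℝ) :
    eval x P = ∑ S, coeff (ind S) P * ∏ i ∈ S, x i := by
  conv_lhs => rw [h.eq_sum]
  rw [map_sum]
  exact sum_congr rfl fun S _ => eval_ind x S _

/-- the function on the cube given by a polynomial -/
def fn (P : MvPolynomial (Fin n) ℝ) (x : Cube n) : ℝ := eval (fun i => sg (x i)) P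

/-- the multilinear polynomial of a function on the cube -/
def pol (f : Cube n → ℝ) : MvPolynomial (Fin n) ℝ := ∑ S, monomial (ind S) (P047.fourierCoeff f S)

theorem Multilin.fourier {P : MvPolynomial (Fin n) ℝ} (h : Multilin P) (S : Finset (Fin n)) :
    P047.fourierCoeff (fn P) S = coeff (ind S) P := by
  unfold P047.fourierCoeff fn
  have h1 : ∀ x : Cube n, eval (fun i => sg (x i)) P * ∏ i ∈ S, ((x i : ℤ) : ℝ) =
      ∑ T, coeff (ind T) P * (chi T x * chi S x) := fun x => by
    rw [h.eval_eq, sum_mul]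
    exact sum_congr rfl fun T _ => by unfold chi; ring
  rw [sum_congr rfl fun x _ => h1 x, sum_comm]
  simp only [← mul_sum, sum_chi_cube, mul_ite, mul_zero, sum_ite_eq', mem_univ, if_true]
  field_simp

theorem multilin_pol (f : Cube n → ℝ) : Multilin (pol f) := fun i =>
  degreeOf_le_iff.2 fun m hm => by
    have h := mem_support_iff.1 hm
    rw [pol, coeff_sum_ind] at h
    split_ifs at h with h1
    · rw [← h1, ind_apply]
      split_ifs <;> omega
    · exact absurd rfl h

theorem fn_pol (f : Cube n → ℝ) : fn (pol f) = f := by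
  funext x
  rw [fn, pol, map_sum, ← inversion f x]
  exact sum_congr rfl fun S _ => eval_ind _ S _

theorem Multilin.pol_fn {P : MvPolynomial (Fin n) ℝ} (h : Multilin P) : pol (fn P) = P := by
  conv_rhs => rw [h.eq_sum]
  exact sum_congr rfl fun S _ => by rw [h.fourier]

theorem Multilin.degree_fn {P : MvPolynomial (Fin n) ℝ} (h : Multilin P) :
    degree (fn P) = P.totalDegree := by
  refine le_antisymm (Finset.sup_le fun S hS => ?_) (Finset.sup_le fun m hm => ?_)
  · have h1 := (mem_filter.1 hS).2
    rw [h.fourier] at h1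
    rw [← sum_ind]
    exact le_totalDegree (mem_support_iff.2 h1)
  · have h1 := eq_ind (h.le_one hm)
    rw [h1, sum_ind]
    refine Finset.le_sup (f := Finset.card) (mem_filter.2 ⟨mem_univ _, ?_⟩)
    rw [h.fourier, ← h1]
    exact mem_support_iff.1 hm

theorem Multilin.Eb_fn {P : MvPolynomial (Fin n) ℝ} (h : Multilin P) (s : ℝ) :
    Eb s (fn P) = eval (fun _ => s) P := by
  rw [Eb_fourier, h.eval_eq]
  exact sum_congr rfl fun S _ => by rw [h.fourier, prod_const]

theorem Multilin.lin_eq {P : MvPolynomial (Fin n) ℝ} (h : Multilin P) (i : Fin n) :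
    lin P i = P047.fourierCoeff (fn P) {i} := by
  rw [h.fourier, ind, sum_singleton, lin]

theorem Multilin.sum_lin {P : MvPolynomial (Fin n) ℝ} (h : Multilin P) :
    ∑ i, lin P i = linearSum (fn P) := sum_congr rfl fun i _ => h.lin_eq i

theorem Multilin.coeff_zero_eq {P : MvPolynomial (Fin n) ℝ} (h : Multilin P) :
    coeff 0 P = P047.fourierCoeff (fn P) ∅ := by
  rw [h.fourier, ind, sum_empty]

theorem Multilin.sum_abs_lin {P : MvPolynomial (Fin n) ℝ} (h : Multilin P) :
    ∃ ε : Cube n, ∑ i, |lin P i| = ∑ i, sg (ε i) * P047.fourierCoeff (fn P) {i} := by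
  refine ⟨fun i => if 0 ≤ lin P i then 1 else -1, sum_congr rfl fun i _ => ?_⟩
  rw [← h.lin_eq]
  dsimp only
  split_ifs with h0
  · rw [sg_one, one_mul, abs_of_nonneg h0]
  · rw [sg_neg_one, abs_of_neg (not_le.1 h0)]
    ring

theorem Boolean.isBoolean {P : MvPolynomial (Fin n) ℝ} (h : Boolean P) : IsBoolean (fn P) :=
  fun x => h.2 _ fun i => sg_cases (x i)

theorem boolean_pol {f : Cube n → ℝ} (h : IsBoolean f) : Boolean (pol f) := by
  refine ⟨multilin_pol f, fun x hx => ?_⟩
  have h1 : x = fun i => sg ((fun i => if x i = 1 then 1 else -1 : Cube n) i) := by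
    funext i
    rcases hx i with h2 | h2
    · simp only [h2, if_true, sg_one]
    · have : x i ≠ 1 := by rw [h2]; norm_num
      simp only [this, if_false, sg_neg_one]
      exact h2
  have h2 := h fun i => if x i = 1 then 1 else -1
  rw [← fn_pol f] at h2
  rw [h1]
  exact h2

/-- the sign of a bit -/
def us : ZMod 2 ≃ ℤˣ where
  toFun b := if b = 0 then 1 else -1
  invFun u := if u = 1 then 0 else 1
  left_inv := by decide
  right_inv u := by rcases Int.units_eq_one_or u with h | h <;> subst h <;> decide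

theorem us_symm_mul (a b c : ℤˣ) : us.symm (a * b * c) = us.symm a - us.symm b + us.symm c := by
  rcases Int.units_eq_one_or a with h | h <;> rcases Int.units_eq_one_or b with h' | h' <;>
    rcases Int.units_eq_one_or c with h'' | h'' <;> subst h <;> subst h' <;> subst h'' <;> decide

/-- bits to signs -/
def cu (n : ℕ) : (Fin n → ZMod 2) ≃ Cube n := Equiv.piCongrRight fun _ => us

theorem sg_cu (x : Fin n → ZMod 2) (i : Fin n) : sg (cu n x i) = pt x i := by
  show sg (if x i = 0 then 1 else -1) = if x i = 0 then 1 else -1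
  split_ifs
  · exact sg_one
  · exact sg_neg_one

theorem fn_cu (P : MvPolynomial (Fin n) ℝ) (x : Fin n → ZMod 2) :
    fn P (cu n x) = eval (pt x) P := by
  unfold fn
  congr 2
  exact funext (sg_cu x)

open Classical in
/-- an affine subspace as a set of sign vectors -/
def af (A : AffineSubspace (ZMod 2) (Fin n → ZMod 2)) : Finset (Cube n) :=
  univ.filter fun y => (cu n).symm y ∈ A

theorem mem_af {A : AffineSubspace (ZMod 2) (Fin n → ZMod 2)} {y : Cube n} :
    y ∈ af A ↔ (cu n).symm y ∈ A := by
  simp [af]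

theorem tern_af (A : AffineSubspace (ZMod 2) (Fin n → ZMod 2)) : Tern (af A) := by
  intro x hx y hy z hz
  rw [mem_af] at hx hy hz ⊢
  convert A.smul_vsub_vadd_mem 1 hx hy hz using 1
  funext i
  simp only [one_smul, vsub_eq_sub, vadd_eq_add, Pi.add_apply, Pi.sub_apply]
  exact us_symm_mul (x i) (y i) (z i)

theorem card_af (A : AffineSubspace (ZMod 2) (Fin n → ZMod 2)) :
    (af A).card = (A : Set (Fin n → ZMod 2)).ncard := by
  rw [← Set.ncard_coe_finset, ← Set.ncard_image_of_injective _ (cu n).injective]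
  congr 1
  ext y
  rw [mem_coe, mem_af, Equiv.image_eq_preimage_symm]
  rfl

theorem dens_eq (A : AffineSubspace (ZMod 2) (Fin n → ZMod 2)) :
    dens A = (af A).card / 2 ^ n := by
  rw [card_af, dens]

theorem le_card_af (A : AffineSubspace (ZMod 2) (Fin n → ZMod 2)) {k : ℕ} (hk : codim A ≤ k)
    (h : (af A).Nonempty) : 2 ^ n ≤ (af A).card * 2 ^ k := by
  classical
  obtain ⟨y, hy⟩ := h
  have hy' := mem_af.1 hy
  have : Nonempty A := ⟨⟨_, hy'⟩⟩
  have h1 : Nat.card A.direction = Nat.card A :=
    Nat.card_congr (Equiv.vaddConst (⟨_, hy'⟩ : A))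
  have h2 : Nat.card A.direction = 2 ^ Module.finrank (ZMod 2) A.direction := by
    have := Fintype.ofFinite A.direction
    rw [Nat.card_eq_fintype_card, Module.card_eq_pow_finrank (K := ZMod 2), ZMod.card]
  have h3 : (af A).card = 2 ^ Module.finrank (ZMod 2) A.direction := by
    rw [card_af, ← h2, h1]
    rfl
  rw [h3, ← pow_add]
  refine Nat.pow_le_pow_right (by norm_num) ?_
  unfold codim at hk
  omega

theorem Conic.fn_eq {m : ℕ} {P : MvPolynomial (Fin n) ℝ} {c : Fin m → ℝ}
    {A : Fin m → AffineSubspace (ZMod 2) (Fin n → ZMod 2)} (h : Conic P c A) (y : Cube n) :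
    fn P y ≤ 1 ∧ fn P y = ∑ a, if y ∈ af (A a) then c a else 0 := by
  obtain ⟨x, rfl⟩ := (cu n).surjective y
  rw [fn_cu]
  refine ⟨(h.2.2 x).1, (h.2.2 x).2.trans (sum_congr rfl fun a _ => ?_)⟩
  by_cases hx : x ∈ A a
  · rw [Set.indicator_of_mem (show x ∈ (A a : Set _) from hx), if_pos (by simpa [mem_af] using hx)]
  · rw [Set.indicator_of_notMem (show x ∉ (A a : Set _) from hx),
      if_neg (by simpa [mem_af] using hx)]

end

end Vale.Agent.N047C
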