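import Vale.Agent.P047.H594.Main

/-! Biased product measures on the cube, random restrictions, slope of the bias function. -/

open Finset

namespace Vale.Agent.N047C

open Vale.Agent.P047 Vale.Agent.P047.H594

noncomputable section

/-- the sign as a real number -/
abbrev sg (u : ℤˣ) : ℝ := ((u : ℤ) : ℝ)

/-- the law of one sign with mean `s` -/
def w (s : ℝ) (u : ℤˣ) : ℝ := (1 + s * sg u) / 2

/-- expectation for independent signs of mean `s` -/
def Eb {ι : Type} [Fintype ι] [DecidableEq ι] (s : ℝ) (f : (ι → ℤˣ) → ℝ) : ℝ :=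
  ∑ x : ι → ℤˣ, (∏ i, w s (x i)) * f x

theorem sum_units (F : ℤˣ → ℝ) : ∑ b : ℤˣ, F b = F 1 + F (-1) := sign_units_sum F

theorem sg_one : sg 1 = 1 := by simp [sg]

theorem sg_neg_one : sg (-1) = -1 := by simp [sg]

theorem sg_mul (a b : ℤˣ) : sg (a * b) = sg a * sg b := by simp [sg]

theorem sg_neg (a : ℤˣ) : sg (-a) = - sg a := by simp [sg]

theorem sg_cases (a : ℤˣ) : sg a = 1 ∨ sg a = -1 := by
  rcases Int.units_eq_one_or a with h | h <;> rw [h] <;> simp [sg]

theorem abs_sg (a : ℤˣ) : |sg a| = 1 := by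
  rcases sg_cases a with h | h <;> rw [h] <;> simp

theorem sum_w (s : ℝ) : ∑ u, w s u = 1 := by
  rw [sum_units]; simp only [w, sg_one, sg_neg_one]; ring

theorem sum_w_sg (s : ℝ) : ∑ u, w s u * sg u = s := by
  rw [sum_units]; simp only [w, sg_one, sg_neg_one]; ring

theorem w_nonneg {s : ℝ} (hs : |s| ≤ 1) (u : ℤˣ) : 0 ≤ w s u := by
  have h := abs_le.1 hs
  unfold w
  rcases sg_cases u with h1 | h1 <;> rw [h1] <;> linarith [h.1, h.2]

theorem ind_eq (a b : ℤˣ) : (if a = b then (1 : ℝ) else 0) = (1 + sg a * sg b) / 2 := by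
  rcases Int.units_eq_one_or a with h | h <;> rcases Int.units_eq_one_or b with h' | h' <;>
    subst h <;> subst h' <;> simp [sg]

/-- push-forward of a product weight under coordinatewise maps -/
theorem push {ι Ω Λ : Type} [Fintype ι] [DecidableEq ι] [Fintype Ω] [Fintype Λ] [DecidableEq Λ]
    (P : ι → Ω → ℝ) (φ : ι → Ω → Λ) (F : (ι → Λ) → ℝ) :
    ∑ y : ι → Ω, (∏ i, P i (y i)) * F (fun i => φ i (y i)) =
      ∑ z : ι → Λ, (∏ i, ∑ c, if φ i c = z i then P i c else 0) * F z := by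
  have e2 : ∀ y : ι → Ω, (∏ i, P i (y i)) * F (fun i => φ i (y i)) =
      ∑ z : ι → Λ, (∏ i, if φ i (y i) = z i then P i (y i) else 0) * F z := by
    intro y
    rw [Finset.sum_eq_single (fun i => φ i (y i))]
    · simp only [↓reduceIte]
    · intro z _ hz
      have : ∃ i, φ i (y i) ≠ z i := by
        by_contra hcon
        push Not at hcon
        exact hz (funext (fun i => (hcon i).symm))
      obtain ⟨i, hi⟩ := this
      rw [Finset.prod_eq_zero (Finset.mem_univ i) (by simp [hi]), zero_mul]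
    · intro h; exact (h (Finset.mem_univ _)).elim
  rw [Finset.sum_congr rfl (fun y _ => e2 y), Finset.sum_comm]
  refine Finset.sum_congr rfl (fun z _ => ?_)
  rw [← Finset.sum_mul, sum_prod_fun (fun i c => if φ i c = z i then P i c else 0)]

variable {ι : Type} [Fintype ι] [DecidableEq ι]

theorem sum_prod_w (s : ℝ) : ∑ x : ι → ℤˣ, ∏ i, w s (x i) = 1 := by
  rw [sum_prod_fun (fun _ c => w s c)]
  simp only [sum_w, prod_const_one]

theorem Eb_const (s c : ℝ) : Eb s (fun _ : ι → ℤˣ => c) = c := by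
  unfold Eb
  rw [← Finset.sum_mul, sum_prod_w, one_mul]

theorem Eb_mono {s : ℝ} (hs : |s| ≤ 1) {f g : (ι → ℤˣ) → ℝ} (h : ∀ x, f x ≤ g x) :
    Eb s f ≤ Eb s g :=
  sum_le_sum fun x _ => mul_le_mul_of_nonneg_left (h x) (prod_nonneg fun _ _ => w_nonneg hs _)

theorem Eb_neg (s : ℝ) (f : (ι → ℤˣ) → ℝ) : Eb (-s) f = Eb s (fun x => f (fun i => - x i)) := by
  unfold Eb
  refine Fintype.sum_equiv (Equiv.neg (ι → ℤˣ)) _ _ fun x => ?_
  have h1 : (fun i => - (Equiv.neg (ι → ℤˣ) x) i) = x := by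
    funext i; simp
  beta_reduce
  rw [h1]
  congr 1
  refine prod_congr rfl fun i _ => ?_
  simp only [w, Equiv.neg_apply, Pi.neg_apply, sg_neg]
  ring

theorem Eb_smul (s c : ℝ) (f : (ι → ℤˣ) → ℝ) : Eb s (fun x => c * f x) = c * Eb s f := by
  unfold Eb
  rw [Finset.mul_sum]
  exact sum_congr rfl fun x _ => by ring

theorem Eb_add (s : ℝ) (f g : (ι → ℤˣ) → ℝ) :
    Eb s (fun x => f x + g x) = Eb s f + Eb s g := by
  unfold Eb
  rw [← Finset.sum_add_distrib]
  exact sum_congr rfl fun x _ => by ring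

theorem Eb_sum {α : Type} (T : Finset α) (s : ℝ) (f : α → (ι → ℤˣ) → ℝ) :
    Eb s (fun x => ∑ a ∈ T, f a x) = ∑ a ∈ T, Eb s (f a) := by
  unfold Eb
  rw [Finset.sum_comm]
  exact sum_congr rfl fun x _ => by rw [Finset.mul_sum]

theorem Eb_prod (s : ℝ) (S : Finset ι) : Eb s (fun x => ∏ i ∈ S, sg (x i)) = s ^ S.card := by
  unfold Eb
  have h1 : ∀ x : ι → ℤˣ, (∏ i, w s (x i)) * ∏ i ∈ S, sg (x i) =
      ∏ i, (w s (x i) * if i ∈ S then sg (x i) else 1) := by
    intro x
    rw [prod_mul_distrib, prod_ite_mem, univ_inter]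
  rw [Finset.sum_congr rfl fun x _ => h1 x,
    sum_prod_fun (fun i c => w s c * if i ∈ S then sg c else 1)]
  have h2 : ∀ i, ∑ c, (w s c * if i ∈ S then sg c else 1) = if i ∈ S then s else 1 := by
    intro i
    split_ifs
    · exact sum_w_sg s
    · simp only [mul_one, sum_w]
  rw [prod_congr rfl fun i _ => h2 i, prod_ite_mem, univ_inter, prod_const]

/-- fixing the coordinates chosen by `β` to the sign `σ` -/
def res (β : ι → Bool) (σ : ℤˣ) (x : ι → ℤˣ) : ι → ℤˣ := fun i => if β i then σ else x i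

/-- the law of the choice -/
def q (r : ℝ) (b : Bool) : ℝ := if b then r else 1 - r

theorem sum_prod_q (r : ℝ) : ∑ β : ι → Bool, ∏ i, q r (β i) = 1 := by
  rw [sum_prod_fun (fun _ c => q r c)]
  simp [q]

theorem Eb_res (r u : ℝ) (σ : ℤˣ) (f : (ι → ℤˣ) → ℝ) :
    Eb (sg σ * r + (1 - r) * u) f =
      ∑ β : ι → Bool, (∏ i, q r (β i)) * Eb u (fun x => f (res β σ x)) := by
  have h1 : ∀ β : ι → Bool, Eb u (fun x => f (res β σ x)) = ∑ z : ι → ℤˣ,
      (∏ i, ∑ c, if (if β i then σ else c) = z i then w u c else 0) * f z := fun β =>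
    push (fun _ c => w u c) (fun i c => if β i then σ else c) f
  simp only [h1, Finset.mul_sum]
  rw [Finset.sum_comm]
  unfold Eb
  refine sum_congr rfl fun z _ => ?_
  have h2 : ∀ β : ι → Bool, (∏ i, q r (β i)) *
      ((∏ i, ∑ c, if (if β i then σ else c) = z i then w u c else 0) * f z) =
      (∏ i, (q r (β i) * ∑ c, if (if β i then σ else c) = z i then w u c else 0)) * f z := by
    intro β
    rw [prod_mul_distrib]; ring
  rw [Finset.sum_congr rfl fun β _ => h2 β, ← Finset.sum_mul,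
    sum_prod_fun (fun i b => q r b * ∑ c, if (if b then σ else c) = z i then w u c else 0)]
  congr 1
  refine prod_congr rfl fun i _ => ?_
  rw [Fintype.sum_bool]
  simp only [q, if_true, Bool.false_eq_true, if_false]
  have h3 : ∑ c, (if σ = z i then w u c else 0) = (1 + sg σ * sg (z i)) / 2 := by
    rw [← ind_eq]
    split_ifs
    · exact sum_w u
    · simp
  rw [h3, Finset.sum_ite_eq' univ (z i)]
  simp only [mem_univ, if_true, w]
  ring

variable {n : ℕ}

theorem Eb_fourier (s : ℝ) (f : Cube n → ℝ) :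
    Eb s f = ∑ S : Finset (Fin n), fourierCoeff f S * s ^ S.card := by
  have h1 : f = fun x => ∑ S : Finset (Fin n), fourierCoeff f S * chi S x :=
    funext fun x => (inversion f x).symm
  conv_lhs => rw [h1]
  rw [Eb_sum]
  refine sum_congr rfl fun S _ => ?_
  rw [Eb_smul]
  congr 1
  exact Eb_prod s S

theorem sum_card_one (c : Finset (Fin n) → ℝ) :
    ∑ S : Finset (Fin n), c S * ((S.card : ℝ) * (0 : ℝ) ^ (S.card - 1)) = ∑ i, c {i} := by
  have h1 : ∑ i, c {i} = ∑ S ∈ (univ : Finset (Fin n)).image (fun i => ({i} : Finset (Fin n))),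
      c S * ((S.card : ℝ) * (0 : ℝ) ^ (S.card - 1)) := by
    rw [sum_image (fun a _ b _ h => Finset.singleton_injective h)]
    simp
  rw [h1]
  symm
  refine sum_subset (subset_univ _) fun S _ hS => ?_
  rcases Nat.lt_trichotomy S.card 1 with h | h | h
  · have : S.card = 0 := by omega
    simp [this]
  · obtain ⟨i, rfl⟩ := card_eq_one.1 h
    exact absurd (mem_image.2 ⟨i, mem_univ _, rfl⟩) hS
  · rw [zero_pow (by omega)]
    simp

theorem hasDerivAt_Eb (f : Cube n → ℝ) (s : ℝ) : HasDerivAt (fun u => Eb u f)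
    (∑ S : Finset (Fin n), fourierCoeff f S * ((S.card : ℝ) * s ^ (S.card - 1))) s := by
  simp only [Eb_fourier]
  exact HasDerivAt.fun_sum fun S _ => (hasDerivAt_pow S.card s).const_mul _

theorem hasDerivAt_Eb_zero (f : Cube n → ℝ) : HasDerivAt (fun u => Eb u f) (linearSum f) 0 := by
  have h := hasDerivAt_Eb f 0
  rwa [sum_card_one] at h

/-- The slope of the bias function at `s` is an average of linear sums of restrictions. -/
theorem slope_le {f : Cube n → ℝ} {K : ℝ}
    (h : ∀ β σ, linearSum (fun x => f (res β σ x)) ≤ K) {s D : ℝ} (hs : |s| ≤ 1)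
    (hD : HasDerivAt (fun u => Eb u f) D s) : D * (1 - |s|) ≤ K := by
  obtain ⟨σ, hσ⟩ : ∃ σ : ℤˣ, sg σ * |s| = s := by
    rcases le_total 0 s with h0 | h0
    · exact ⟨1, by rw [sg_one, abs_of_nonneg h0, one_mul]⟩
    · exact ⟨-1, by rw [sg_neg_one, abs_of_nonpos h0]; ring⟩
  have h1 : HasDerivAt (fun u : ℝ => sg σ * |s| + (1 - |s|) * u) (1 - |s|) 0 := by
    simpa using ((hasDerivAt_id (0 : ℝ)).const_mul (1 - |s|)).const_add (sg σ * |s|)
  have h2 : HasDerivAt (fun u => Eb (sg σ * |s| + (1 - |s|) * u) f) (D * (1 - |s|)) 0 := by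
    refine HasDerivAt.comp (h₂ := fun u => Eb u f) 0 ?_ h1
    simpa [hσ] using hD
  have h3 : HasDerivAt (fun u => Eb (sg σ * |s| + (1 - |s|) * u) f)
      (∑ β : Fin n → Bool, (∏ i, q |s| (β i)) * linearSum (fun x => f (res β σ x))) 0 := by
    simp only [Eb_res]
    exact HasDerivAt.fun_sum fun β _ => (hasDerivAt_Eb_zero _).const_mul _
  rw [h2.unique h3]
  calc _ ≤ ∑ β : Fin n → Bool, (∏ i, q |s| (β i)) * K := by
        refine sum_le_sum fun β _ => mul_le_mul_of_nonneg_left (h β σ) ?_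
        refine prod_nonneg fun i _ => ?_
        unfold q
        split_ifs
        · exact abs_nonneg s
        · linarith
    _ = K := by rw [← Finset.sum_mul, sum_prod_q, one_mul]

/-- The change of the mean between the biases `-t` and `t`. -/
theorem diff_le {f : Cube n → ℝ} {K : ℝ} (hK : 0 ≤ K)
    (h : ∀ β σ, linearSum (fun x => f (res β σ x)) ≤ K) {t : ℝ} (h0 : 0 < t) (h1 : t < 1) :
    Eb t f - Eb (-t) f ≤ 2 * t * K / (1 - t) := by
  obtain ⟨s, hs, hsl⟩ := exists_hasDerivAt_eq_slope (fun u => Eb u f) _ (show -t < t by linarith)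
    (fun u _ => (hasDerivAt_Eb f u).continuousAt.continuousWithinAt) fun u _ => hasDerivAt_Eb f u
  have hs1 : |s| ≤ t := abs_le.2 ⟨hs.1.le, hs.2.le⟩
  have h2 := slope_le h (hs1.trans h1.le) (hasDerivAt_Eb f s)
  rw [hsl] at h2
  have h3 : 0 < 1 - t := by linarith
  rw [le_div_iff₀ h3]
  rcases le_total (Eb t f - Eb (-t) f) 0 with h4 | h4
  · have := mul_nonpos_of_nonpos_of_nonneg h4 h3.le
    have h5 : 0 ≤ 2 * t * K := by positivity
    linarith
  · have h5 : t - -t = 2 * t := by ring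
    rw [h5, div_mul_eq_mul_div, div_le_iff₀ (by linarith)] at h2
    have h6 : (Eb t f - Eb (-t) f) * (1 - t) ≤ (Eb t f - Eb (-t) f) * (1 - |s|) :=
      mul_le_mul_of_nonneg_left (by linarith) h4
    linarith

end

end Vale.Agent.N047C
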